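import Vale.Agent.P092LG.Defs

/-!
P092 (helper44), block B1: chains of good steps from a Cartan decomposition.
-/

set_option linter.all false

namespace Vale.Agent.P092LG

open Filter Topology Set
open scoped Pointwise

theorem exists_path {r : ℕ} (q : Fin r → ℕ) : ∃ (n : ℕ) (P : ℕ → Fin r → ℕ), P 0 = 0 ∧ P n = q ∧
    ∀ i < n, ∃ j, P (i + 1) = P i + Pi.single j 1 := by
  induction h : ∑ j, q j generalizing q with
  | zero =>
    have : q = 0 := funext fun j => Finset.sum_eq_zero_iff.1 h j (Finset.mem_univ j)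
    exact ⟨0, fun _ => 0, rfl, this.symm, fun i hi => absurd hi (Nat.not_lt_zero i)⟩
  | succ s ih =>
    obtain ⟨j, -, hj⟩ := Finset.exists_ne_zero_of_sum_ne_zero (s := Finset.univ) (f := q)
      (by rw [h]; exact Nat.succ_ne_zero s)
    have e : q = (q - Pi.single j 1) + Pi.single j 1 := by
      funext l
      by_cases hl : l = j
      · subst hl
        simp only [Pi.add_apply, Pi.sub_apply, Pi.single_eq_same]
        omega
      · simp [Pi.single_eq_of_ne hl]
    obtain ⟨n, P, h0, hn, hP⟩ := ih (q - Pi.single j 1) (by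
      rw [e] at h
      simp only [Pi.add_apply, Finset.sum_add_distrib, Finset.sum_pi_single', Finset.mem_univ,
        if_true] at h
      omega)
    refine ⟨n + 1, fun i => if i ≤ n then P i else q, by simp [h0], by simp, fun i hi => ?_⟩
    rcases (Nat.lt_succ_iff.1 hi).lt_or_eq with h1 | h1
    · obtain ⟨l, hl⟩ := hP i h1
      exact ⟨l, by simp only [if_pos (Nat.succ_le_of_lt h1), if_pos h1.le, hl]⟩
    · subst h1
      exact ⟨j, by simp only [Nat.not_succ_le_self, if_false, le_refl, if_true, hn, ← e]⟩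

variable {G : Type} [Group G] [TopologicalSpace G] [IsTopologicalGroup G]

/-- A Cartan decomposition with a finitely generated chamber and the big cell give `Geo`. -/
theorem geo_of_chamber {r : ℕ} (t : (Fin r → ℕ) → G) (t0 : t 0 = 1)
    (tm : ∀ x y, t (x + y) = t x * t y)
    (ht : ∀ j, Tendsto (fun n : ℕ => t (Pi.single j n)) atTop (cocompact G))
    {C : Set G} (hC : IsCompact C) (kak : ∀ g, ∃ k ∈ C, ∃ k' ∈ C, ∃ x, g = k * t x * k')
    {V K : Set G} (hV : V ∈ 𝓝 (1 : G)) (hK : IsCompact K)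
    (big : ∀ x y, ∀ v ∈ V, ∃ k ∈ K, ∃ k' ∈ K, t x * v * t y = k * t (x + y) * k') : Geo G := by
  refine ⟨V, hV, K, hK, fun L hL => ?_⟩
  have h1 : ∀ᶠ n : ℕ in atTop, ∀ j, t (Pi.single j n) ∉ L :=
    eventually_all.2 fun j => (ht j).eventually hL.compl_mem_cocompact
  obtain ⟨m, hm, hm0⟩ := (h1.and (eventually_gt_atTop 0)).exists
  have hF : (t '' {x | ∀ j, x j ≤ m}).Finite :=
    (Set.Finite.pi' fun _ => Set.finite_le_nat m).image t
  refine ⟨C ∪ (t '' {x | ∀ j, x j ≤ m}) ∪ (t '' {x | ∀ j, x j ≤ m}) * C,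
    (hC.union hF.isCompact).union (hF.isCompact.mul hC), fun g => ?_⟩
  obtain ⟨k, hk, k', hk', x, rfl⟩ := kak g
  obtain ⟨n, P, h0, hn, hP⟩ := exists_path fun j => x j / m
  refine ⟨n, fun i => t (m • P i), by simp [h0, t0],
    ⟨k, Or.inl (Or.inl hk), t (fun j => x j % m) * k',
      Or.inr (mul_mem_mul ⟨_, fun j => (Nat.mod_lt _ hm0).le, rfl⟩ hk'), ?_⟩, fun i hi => ?_⟩
  · beta_reduce
    rw [hn, mul_assoc, mul_assoc, ← mul_assoc (t _), ← tm]
    congr 3
    funext j
    simp only [Pi.add_apply, Pi.smul_apply, smul_eq_mul]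
    exact (Nat.div_add_mod _ _).symm
  · obtain ⟨j, hj⟩ := hP i hi
    have e : m • P (i + 1) = m • P i + Pi.single j m := by
      rw [hj, smul_add, ← Pi.single_smul, smul_eq_mul, mul_one]
    have e2 : (t (m • P i))⁻¹ * t (m • P (i + 1)) = t (Pi.single j m) := by
      rw [e, tm, inv_mul_cancel_left]
    beta_reduce
    rw [e2, e]
    refine ⟨Or.inl (Or.inr ⟨_, fun l => ?_, rfl⟩), hm j, big _ _⟩
    by_cases hl : l = j
    · subst hl
      simp
    · simp [Pi.single_eq_of_ne hl]

end Vale.Agent.P092LG
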