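import Vale.Agent.P092LG.Gap
import Vale.Agent.P092.H933.GLGap2

/-!
P092 (helper44), block B1: ping-pong families have a uniform gap.
-/

set_option linter.all false

namespace Vale.Agent.P092LG

open Filter Topology MeasureTheory MeasureTheory.Measure Set
open scoped InnerProductSpace ComplexConjugate Pointwise ENNReal NNReal
open Vale.Agent.P092.H933 (Len URep fixedSub LeviGap)
open Vale.Agent.P092.H15 (Ctr HMG)
open Vale.Agent.P092.H790 (koo koo_ae norm_koo ind ind_ae ind_mul adjoint_ind norm_ind_le koo_ind)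

section powers

variable {E : Type} [NormedAddCommGroup E] [InnerProductSpace ℂ E] [CompleteSpace E]
  {ι : Type} [Fintype ι]

theorem norm_sq_sum_orth (z : ι → E) (h : ∀ i j, i ≠ j → ⟪z i, z j⟫_ℂ = 0) :
    ‖∑ i, z i‖ ^ 2 = ∑ i, ‖z i‖ ^ 2 := by
  rw [← @inner_self_eq_norm_sq ℂ, sum_inner, _root_.map_sum]
  refine Finset.sum_congr rfl fun i _ => ?_
  rw [inner_sum, Finset.sum_eq_single i (fun j _ hj => h i j (Ne.symm hj)) (by simp),
    inner_self_eq_norm_sq]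

/-- Orthogonal families of projections. -/
structure OrP (P : ι → E →L[ℂ] E) : Prop where
  sa : ∀ i, ContinuousLinearMap.adjoint (P i) = P i
  idem : ∀ i, P i * P i = P i
  orth : ∀ i j, i ≠ j → P i * P j = 0

theorem OrP.inner {P : ι → E →L[ℂ] E} (h : OrP P) (i j : ι) (x y : E) :
    ⟪P i x, P j y⟫_ℂ = ⟪x, (P i * P j) y⟫_ℂ := by
  rw [ContinuousLinearMap.mul_apply, ← ContinuousLinearMap.adjoint_inner_right, h.sa]

theorem OrP.sum_sq_le {P : ι → E →L[ℂ] E} (h : OrP P) (x : E) : ∑ i, ‖P i x‖ ^ 2 ≤ ‖x‖ ^ 2 := by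
  have h1 := norm_sq_sum_orth (fun i => P i x) fun i j hij => by
    rw [h.inner, h.orth i j hij]; simp
  have h2 : (⟪x, ∑ i, P i x⟫_ℂ).re = ∑ i, ‖P i x‖ ^ 2 := by
    rw [inner_sum, Complex.re_sum]
    refine Finset.sum_congr rfl fun i _ => ?_
    rw [← @inner_self_eq_norm_sq ℂ, h.inner, h.idem]
    rfl
  have h3 : (⟪x, ∑ i, P i x⟫_ℂ).re ≤ ‖x‖ * ‖∑ i, P i x‖ :=
    (Complex.re_le_norm _).trans (norm_inner_le_norm _ _)
  rw [← h1] at h2 ⊢
  nlinarith [sq_nonneg (‖x‖ - ‖∑ i, P i x‖)]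

theorem powers {P Q U : ι → E →L[ℂ] E} (hP : OrP P) (hQ : OrP Q) (hU : ∀ i x, ‖U i x‖ ≤ ‖x‖)
    (h : ∀ i, U i * (1 - P i) = Q i * (U i * (1 - P i))) (x : E) :
    ‖∑ i, U i x‖ ≤ 2 * √(Fintype.card ι) * ‖x‖ := by
  have e : ∑ i, U i x = ∑ i, U i (P i x) + ∑ i, Q i (U i (x - P i x)) := by
    rw [← Finset.sum_add_distrib]
    refine Finset.sum_congr rfl fun i _ => ?_
    have h1 := congrArg (fun T : E →L[ℂ] E => T x) (h i)
    simp only [ContinuousLinearMap.mul_apply, ContinuousLinearMap.sub_apply,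
      ContinuousLinearMap.one_apply] at h1
    rw [← h1, map_sub]
    abel
  have hs : (√(Fintype.card ι) * ‖x‖) ^ 2 = Fintype.card ι * ‖x‖ ^ 2 := by
    rw [mul_pow, Real.sq_sqrt (by positivity)]
  have h1 : ‖∑ i, U i (P i x)‖ ≤ √(Fintype.card ι) * ‖x‖ := by
    refine (norm_sum_le _ _).trans ((Finset.sum_le_sum fun i _ => hU i _).trans ?_)
    refine (sq_le_sq₀ (by positivity) (by positivity)).1 ?_
    rw [hs]
    exact (sq_sum_le_card_mul_sum_sq).trans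
      (mul_le_mul_of_nonneg_left (hP.sum_sq_le x) (by positivity))
  have hle : ∀ {R : ι → E →L[ℂ] E}, OrP R → ∀ i y, ‖R i y‖ ^ 2 ≤ ‖y‖ ^ 2 := fun {R} hR i y =>
    (Finset.single_le_sum (f := fun j => ‖R j y‖ ^ 2) (fun j _ => sq_nonneg _) (Finset.mem_univ i)).trans
      (hR.sum_sq_le y)
  have h2 : ‖∑ i, Q i (U i (x - P i x))‖ ≤ √(Fintype.card ι) * ‖x‖ := by
    refine (sq_le_sq₀ (by positivity) (by positivity)).1 ?_
    rw [hs, norm_sq_sum_orth _ fun i j hij => by rw [hQ.inner, hQ.orth i j hij]; simp]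
    refine (Finset.sum_le_card_nsmul _ _ (‖x‖ ^ 2) fun i _ => ?_).trans (by simp)
    refine (hle hQ i _).trans ((pow_le_pow_left₀ (norm_nonneg _) (hU i _) 2).trans ?_)
    have h3 : ‖x - P i x‖ ^ 2 = ‖x‖ ^ 2 - 2 * (⟪x, P i x⟫_ℂ).re + ‖P i x‖ ^ 2 :=
      @norm_sub_sq ℂ _ _ _ _ x (P i x)
    have h4 : (⟪x, P i x⟫_ℂ).re = ‖P i x‖ ^ 2 := by
      rw [← @inner_self_eq_norm_sq ℂ, hP.inner, hP.idem]
      rfl
    nlinarith [sq_nonneg ‖P i x‖]
  rw [e]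
  linarith [norm_add_le (∑ i, U i (P i x)) (∑ i, Q i (U i (x - P i x)))]

end powers

variable {G : Type} [Group G] [TopologicalSpace G] [IsTopologicalGroup G] [T2Space G]
  [LocallyCompactSpace G] [SecondCountableTopology G] [MeasurableSpace G] [BorelSpace G]

/-- A ping-pong family. -/
def PP {p : ℕ} (s : Fin p → G) : Prop :=
  ∃ Bm Bp : Fin p → Set G, (∀ l, MeasurableSet (Bm l)) ∧ (∀ l, MeasurableSet (Bp l)) ∧
    (∀ l l', l ≠ l' → Disjoint (Bm l) (Bm l')) ∧ (∀ l l', l ≠ l' → Disjoint (Bp l) (Bp l')) ∧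
    ∀ l x, x ∉ Bm l → s l * x ∈ Bp l

theorem orP_ind (μ : Measure G) {p : ℕ} {B : Fin p → Set G} (hB : ∀ l, MeasurableSet (B l))
    (hd : ∀ l l', l ≠ l' → Disjoint (B l) (B l')) : OrP fun l => ind μ ℂ (B l) := by
  refine ⟨fun l => adjoint_ind (hB l), fun l => by rw [ind_mul (hB l) (hB l), inter_self],
    fun l l' h => ?_⟩
  rw [ind_mul (hB l) (hB l'), (hd l l' h).inter_eq]
  ext1 f
  apply Lp.ext
  refine (ind_ae MeasurableSet.empty f).trans ?_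
  rw [indicator_empty]
  exact (Lp.coeFn_zero ℂ 2 μ).symm

theorem one_sub_ind (μ : Measure G) {B : Set G} (hB : MeasurableSet B) :
    1 - ind μ ℂ B = ind μ ℂ Bᶜ := by
  ext1 f
  apply Lp.ext
  refine EventuallyEq.trans ?_ (ind_ae hB.compl f).symm
  filter_upwards [Lp.coeFn_sub f (ind μ ℂ B f), ind_ae hB f] with x h1 h2
  change (f - ind μ ℂ B f : Lp ℂ 2 μ) x = _
  rw [h1, Pi.sub_apply, h2, indicator_compl, Pi.sub_apply]

variable (μ : Measure G) [μ.IsHaarMeasure]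

theorem PP.lreg_le {p : ℕ} {s : Fin p → G} (h : PP s) (f : Lp ℂ 2 μ) :
    ‖∑ l, lreg μ (s l) f‖ ≤ 2 * √p * ‖f‖ := by
  obtain ⟨Bm, Bp, h1, h2, h3, h4, h5⟩ := h
  have := powers (U := fun l => lreg μ (s l)) (orP_ind μ h1 h3) (orP_ind μ h2 h4)
    (fun l x => ((urep_lreg μ).iso _ _).le) (fun l => ?_) f
  · simpa using this
  · have e : lreg μ (s l) * ind μ ℂ (Bm l)ᶜ =
        ind μ ℂ ((fun x => (s l)⁻¹ * x) ⁻¹' (Bm l)ᶜ) * lreg μ (s l) :=
      koo_ind (measurePreserving_mul_left μ (s l)⁻¹) (h1 l).compl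
    rw [one_sub_ind μ (h1 l), e, ← mul_assoc,
      ind_mul (h2 l) (measurable_const_mul _ (h1 l).compl), inter_eq_right.2]
    intro x hx
    simpa using h5 l _ hx

/-- The uniform measure on a finite family. -/
noncomputable def unif {p : ℕ} (s : Fin p → G) : Measure G := ((p : ℝ≥0)⁻¹) • ∑ l, dirac (s l)

theorem unif_prob {p : ℕ} (hp : 0 < p) (s : Fin p → G) : IsProbabilityMeasure (unif s) := by
  constructor
  have : (p : ℝ≥0∞) ≠ 0 := by exact_mod_cast hp.ne'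
  simp [unif, Measure.finset_sum_apply, ENNReal.smul_def, ENNReal.coe_inv, hp.ne',
    ENNReal.inv_mul_cancel this]

theorem avm_unif {H : Type} [NormedAddCommGroup H] [InnerProductSpace ℂ H] [CompleteSpace H]
    {ρ : G →* (H →L[ℂ] H)} (hρ : URep ρ) {p : ℕ} (s : Fin p → G) (x : H) :
    avm ρ (unif s) x = ((p : ℂ))⁻¹ • ∑ l, ρ (s l) x := by
  rw [unif, avm_smul hρ, avm_sum hρ, ContinuousLinearMap.smul_apply, ContinuousLinearMap.sum_apply]
  simp only [avm_dirac hρ]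
  congr 1
  push_cast
  rfl

theorem PP.norm_le {p : ℕ} (hp : 0 < p) {s : Fin p → G} (h : PP s) :
    ‖avm (lreg μ) (unif s)‖ ≤ 2 / √p := by
  have hp' : (0 : ℝ) < p := by exact_mod_cast hp
  refine ContinuousLinearMap.opNorm_le_bound _ (by positivity) fun f => ?_
  rw [avm_unif (urep_lreg μ), norm_smul, norm_inv, Complex.norm_natCast, inv_mul_le_iff₀ hp']
  refine (h.lreg_le μ f).trans (le_of_eq ?_)
  have := Real.mul_self_sqrt hp'.le
  have h0 := Real.sqrt_pos.2 hp'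
  field_simp
  rw [pow_two, this, mul_comm]

include μ in
/-- **Uniform gap of ping-pong families.** -/
theorem gap_pp [μ.IsMulRightInvariant] (hG : Geo G) {I : Type} {S : I → Set G} (hS : HMF S) :
    ∃ α : ℝ, 0 < α ∧
    ∀ (𝓗 : Type) [NormedAddCommGroup 𝓗] [InnerProductSpace ℂ 𝓗] [CompleteSpace 𝓗]
      (σ : G →* (𝓗 →L[ℂ] 𝓗)), URep σ → (∀ i, NoFix σ (S i)) →
      ∀ (p : ℕ), 0 < p → ∀ s : Fin p → G, PP s → ∀ v,
        ‖((p : ℂ))⁻¹ • ∑ l, σ (s l) v‖ ≤ (2 / √p) ^ α * ‖v‖ := by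
  obtain ⟨α, hα, h⟩ := gap_pow μ hG hS
  refine ⟨α, hα, fun 𝓗 _ _ _ σ hσ hN p hp s hs v => ?_⟩
  haveI := unif_prob hp s
  have hp' : (0 : ℝ) < p := by exact_mod_cast hp
  rw [← avm_unif hσ]
  exact (avm σ (unif s)).le_of_opNorm_le
    (h 𝓗 σ hσ hN _ _ (div_pos two_pos (Real.sqrt_pos.2 hp')) (hs.norm_le μ hp)) v

include μ in
/-- **The true gap**: a ping-pong family with more than four elements is a Kazhdan set. -/
theorem gap_true [μ.IsMulRightInvariant] (hG : Geo G) {I : Type} {S : I → Set G} (hS : HMF S)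
    {p : ℕ} (hp : 4 < p) : ∃ κ : ℝ, 0 < κ ∧
    ∀ (𝓗 : Type) [NormedAddCommGroup 𝓗] [InnerProductSpace ℂ 𝓗] [CompleteSpace 𝓗]
      (σ : G →* (𝓗 →L[ℂ] 𝓗)), URep σ → (∀ i, NoFix σ (S i)) →
      ∀ s : Fin p → G, PP s → ∀ v, ‖((p : ℂ))⁻¹ • ∑ l, σ (s l) v‖ ≤ (1 - κ) * ‖v‖ ∧
        ∃ l, κ * ‖v‖ ≤ ‖σ (s l) v - v‖ := by
  obtain ⟨α, hα, h⟩ := gap_pp μ hG hS
  have hp0 : 0 < p := by omega
  have hp' : (4 : ℝ) < p := by exact_mod_cast hp
  have h2 : 2 < √(p : ℝ) := Real.lt_sqrt_of_sq_lt (by linarith)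
  have h1 : (2 / √(p : ℝ)) ^ α < 1 :=
    Real.rpow_lt_one (by positivity) ((div_lt_one (by linarith)).2 h2) hα
  refine ⟨1 - (2 / √p) ^ α, by linarith, fun 𝓗 _ _ _ σ hσ hN s hs v => ?_⟩
  have h3 := h 𝓗 σ hσ hN p hp0 s hs v
  refine ⟨by rwa [sub_sub_cancel], ?_⟩
  haveI : Nonempty (Fin p) := ⟨⟨0, hp0⟩⟩
  obtain ⟨l, hl⟩ := Finite.exists_max fun l => ‖σ (s l) v - v‖
  refine ⟨l, ?_⟩
  have hc : (p : ℂ) ≠ 0 := by exact_mod_cast hp0.ne'
  have e : v = ((p : ℂ))⁻¹ • ∑ l, σ (s l) v - ((p : ℂ))⁻¹ • ∑ l, (σ (s l) v - v) := by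
    rw [← smul_sub, ← Finset.sum_sub_distrib]
    simp only [sub_sub_cancel, Finset.sum_const, Finset.card_univ, Fintype.card_fin]
    rw [← Nat.cast_smul_eq_nsmul ℂ, smul_smul, inv_mul_cancel₀ hc, one_smul]
  have h4 : ‖((p : ℂ))⁻¹ • ∑ l, (σ (s l) v - v)‖ ≤ ‖σ (s l) v - v‖ := by
    rw [norm_smul, norm_inv, Complex.norm_natCast, inv_mul_le_iff₀ (by linarith)]
    refine (norm_sum_le _ _).trans ((Finset.sum_le_card_nsmul _ _ _ fun i _ => hl i).trans ?_)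
    simp
  have h5 := norm_sub_le (((p : ℂ))⁻¹ • ∑ l, σ (s l) v) (((p : ℂ))⁻¹ • ∑ l, (σ (s l) v - v))
  rw [← e] at h5
  linarith

/-- The restriction of a representation to an invariant subspace. -/
theorem exists_sub {𝓗 : Type} [NormedAddCommGroup 𝓗] [InnerProductSpace ℂ 𝓗]
    {σ : G →* (𝓗 →L[ℂ] 𝓗)} (hσ : URep σ) (M : Submodule ℂ 𝓗) (hM : ∀ g, ∀ v ∈ M, σ g v ∈ M) :
    ∃ τ : G →* (M →L[ℂ] M), URep τ ∧ ∀ g (v : M), (τ g v : 𝓗) = σ g v := by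
  refine ⟨{ toFun := fun g => ((σ g).comp M.subtypeL).codRestrict M fun v => hM g v v.2
            map_one' := by ext v; simp
            map_mul' := fun g h => by ext v; exact rmul g h v.1 }, ⟨fun g v => hσ.iso g v, fun v => ?_⟩,
    fun g v => rfl⟩
  exact tendsto_subtype_rng.2 (hσ.cont v)

include μ in
/-- **The gap in centralisers** in the form of the growth lemma. -/
theorem leviGap [μ.IsMulRightInvariant] (hG : Geo G) (hS : HMF fun _ : Unit => (univ : Set G))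
    {b : G} (hb : ∀ n : ℕ, ∃ p, n ≤ p ∧ ∃ s : Fin p → G, PP s ∧ ∀ l, Commute (s l) b) :
    LeviGap b := by
  obtain ⟨α, hα, h⟩ := gap_pp μ hG hS
  intro 𝓗 _ _ _ σ hσ e he
  have t1 : Tendsto (fun p : ℕ => (2 / √(p : ℝ)) ^ α) atTop (𝓝 0) := by
    have t2 : Tendsto (fun p : ℕ => 2 / √(p : ℝ)) atTop (𝓝 0) :=
      (Real.tendsto_sqrt_atTop.comp tendsto_natCast_atTop_atTop).const_div_atTop 2
    have := t2.rpow_const (p := α) (Or.inr hα.le)
    rwa [Real.zero_rpow hα.ne'] at this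
  obtain ⟨n, hn⟩ := eventually_atTop.1 ((t1.eventually (ge_mem_nhds he)).and (eventually_gt_atTop 0))
  obtain ⟨p, hp, s, hs, hsb⟩ := hb n
  refine ⟨p, (hn p hp).2, s, hsb, fun v hv => ?_⟩
  obtain ⟨τ, hτ, hτσ⟩ := exists_sub hσ (fixedSub σ)ᗮ fun g w hw η hη => by
    rw [hσ.inner_right, hη g⁻¹]
    exact hw η hη
  have h1 := h _ τ hτ (fun _ w hw => Subtype.ext (inner_self_eq_zero (𝕜 := ℂ).1
    (w.2 w fun g => by rw [← hτσ, hw g trivial]))) p (hn p hp).2 s hs ⟨v, hv⟩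
  have e1 : ((((p : ℂ))⁻¹ • ∑ l, τ (s l) ⟨v, hv⟩ : (fixedSub σ)ᗮ) : 𝓗) =
      ((p : ℂ))⁻¹ • ∑ l, σ (s l) v := by
    rw [Submodule.coe_smul, Submodule.coe_sum]
    simp only [hτσ]
  rw [← e1]
  exact h1.trans (mul_le_mul_of_nonneg_right (hn p hp).1 (norm_nonneg _))

end Vale.Agent.P092LG
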