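import Vale.Agent.P092LG.Ult
import Mathlib.MeasureTheory.Measure.Haar.Unique
import Mathlib.MeasureTheory.Function.L2Space
import Mathlib.MeasureTheory.Group.Integral

/-!
P092 (helper44), block B1: averaging operators, invariant cones, domination.
-/

set_option linter.all false

namespace Vale.Agent.P092LG

open Filter Topology MeasureTheory MeasureTheory.Measure
open scoped InnerProductSpace ComplexConjugate Pointwise ENNReal
open Vale.Agent.P092.H933 (Len URep)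

section cone

variable {H : Type} [NormedAddCommGroup H] [InnerProductSpace ℂ H]

/-- The dual cone. -/
def Du (C : Set H) : Set H := {w | ∀ x ∈ C, 0 ≤ (⟪w, x⟫_ℂ).re}

/-- `S` preserves the cone. -/
def Pr (C : Set H) (S : H →L[ℂ] H) : Prop := ∀ x ∈ C, S x ∈ C

/-- `S` is dominated by `T`. -/
def Le (C : Set H) (S T : H →L[ℂ] H) : Prop :=
  ∀ x ∈ C, ∀ w ∈ Du C, (⟪w, S x⟫_ℂ).re ≤ (⟪w, T x⟫_ℂ).re

/-- A bound on the cone. -/
def Bd (C : Set H) (S : H →L[ℂ] H) (t : ℝ) : Prop := ∀ x ∈ C, ‖S x‖ ≤ t * ‖x‖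

/-- A closed convex cone with nonnegative inner products. -/
structure Cone (C : Set H) : Prop where
  pos : C ⊆ Du C
  bid : ∀ z, (∀ w ∈ Du C, 0 ≤ (⟪w, z⟫_ℂ).re) → z ∈ C

variable {C : Set H} {R S T : H →L[ℂ] H} {s t : ℝ}

theorem re_symm (x y : H) : (⟪x, y⟫_ℂ).re = (⟪y, x⟫_ℂ).re := by
  rw [← inner_conj_symm, Complex.conj_re]

theorem cone_du {P : Set H} (h : P ⊆ Du P) : Cone (Du (Du P)) ∧ P ⊆ Du (Du P) := by
  have h1 : ∀ Q : Set H, Q ⊆ Du (Du Q) := fun Q x hx w hw => by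
    rw [re_symm]; exact hw x hx
  have h2 : ∀ {Q Q' : Set H}, Q ⊆ Q' → Du Q' ⊆ Du Q := fun hQ w hw x hx => hw x (hQ hx)
  refine ⟨⟨(h2 h).trans (h1 _), fun z hz w hw => ?_⟩, h1 P⟩
  rw [re_symm]
  exact hz w (h1 _ hw)

theorem Pr.mul (hS : Pr C S) (hT : Pr C T) : Pr C (S * T) := fun x hx => hS _ (hT x hx)

theorem Le.trans (h : Le C R S) (h' : Le C S T) : Le C R T :=
  fun x hx w hw => (h x hx w hw).trans (h' x hx w hw)

theorem Le.sub_mem (hC : Cone C) (h : Le C S T) {x : H} (hx : x ∈ C) : T x - S x ∈ C :=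
  hC.bid _ fun w hw => by
    rw [inner_sub_right, Complex.sub_re]
    linarith [h x hx w hw]

theorem Le.mul_left (hC : Cone C) (h : Le C S T) (hR : Pr C R) : Le C (R * S) (R * T) := by
  intro x hx w hw
  have h1 := hw _ (hR _ (h.sub_mem hC hx))
  rw [map_sub, inner_sub_right, Complex.sub_re] at h1
  change (⟪w, R (S x)⟫_ℂ).re ≤ (⟪w, R (T x)⟫_ℂ).re
  linarith

theorem Le.mul_right (h : Le C S T) (hR : Pr C R) : Le C (S * R) (T * R) :=
  fun x hx w hw => h _ (hR x hx) w hw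

theorem Cone.norm_le (hC : Cone C) {u v : H} (hu : u ∈ C) (huv : v - u ∈ C) : ‖u‖ ≤ ‖v‖ := by
  have h1 : ‖u + (v - u)‖ ^ 2 = ‖u‖ ^ 2 + 2 * (⟪u, v - u⟫_ℂ).re + ‖v - u‖ ^ 2 :=
    @norm_add_sq ℂ _ _ _ _ u (v - u)
  rw [add_sub_cancel] at h1
  have h2 := hC.pos hu _ huv
  exact (sq_le_sq₀ (norm_nonneg _) (norm_nonneg _)).1 (by nlinarith [sq_nonneg ‖v - u‖])

theorem Bd.of_le (hC : Cone C) (hS : Pr C S) (h : Le C S T) (hT : Bd C T t) : Bd C S t :=
  fun x hx => (hC.norm_le (hS x hx) (h.sub_mem hC hx)).trans (hT x hx)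

theorem Bd.mul (hS : Bd C S s) (hT : Bd C T t) (hP : Pr C T) (hs : 0 ≤ s) :
    Bd C (S * T) (s * t) := fun x hx =>
  (hS _ (hP x hx)).trans (by rw [mul_assoc]; exact mul_le_mul_of_nonneg_left (hT x hx) hs)

theorem Bd.mono (hS : Bd C S s) (h : s ≤ t) : Bd C S t := fun x hx =>
  (hS x hx).trans (mul_le_mul_of_nonneg_right h (norm_nonneg _))

theorem Bd.sum {ι : Type} (F : Finset ι) {S : ι → H →L[ℂ] H} (h : ∀ i ∈ F, Bd C (S i) t) :
    Bd C (∑ i ∈ F, S i) (F.card * t) := fun x hx => by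
  rw [ContinuousLinearMap.sum_apply]
  refine (norm_sum_le _ _).trans ((Finset.sum_le_sum fun i hi => h i hi x hx).trans ?_)
  rw [Finset.sum_const, nsmul_eq_mul, mul_assoc]

theorem Pr.smul (hC : Cone C) (hS : Pr C S) {c : ℝ} (hc : 0 ≤ c) : Pr C ((c : ℂ) • S) :=
  fun x hx => hC.bid _ fun w hw => by
    rw [ContinuousLinearMap.smul_apply, inner_smul_right, Complex.re_ofReal_mul]
    exact mul_nonneg hc (hw _ (hS x hx))

theorem Bd.of_smul {c : ℝ} (hc : 0 < c) (h : Bd C ((c : ℂ) • S) t) : Bd C S (t / c) := by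
  intro x hx
  have h1 := h x hx
  rw [ContinuousLinearMap.smul_apply, norm_smul, Complex.norm_real, Real.norm_of_nonneg hc.le] at h1
  rw [div_mul_eq_mul_div, le_div_iff₀ hc]
  linarith

end cone

variable {G : Type} [Group G] [TopologicalSpace G] [IsTopologicalGroup G]
  [SecondCountableTopology G] [MeasurableSpace G] [BorelSpace G]
  {H : Type} [NormedAddCommGroup H] [InnerProductSpace ℂ H] [CompleteSpace H]
  {ρ : G →* (H →L[ℂ] H)}

theorem cont_rep (hρ : URep ρ) (x : H) : Continuous fun g => ρ g x :=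
  continuous_iff_continuousAt.2 fun g => hρ.tendsto tendsto_id tendsto_const_nhds

theorem int_rep (hρ : URep ρ) (ν : Measure G) [IsFiniteMeasure ν] (x : H) :
    Integrable (fun g => ρ g x) ν :=
  Integrable.of_bound (cont_rep hρ x).aestronglyMeasurable ‖x‖
    (Eventually.of_forall fun g => (hρ.iso g x).le)

theorem norm_int_rep (hρ : URep ρ) (ν : Measure G) [IsFiniteMeasure ν] (x : H) :
    ‖∫ g, ρ g x ∂ν‖ ≤ ν.real Set.univ * ‖x‖ := by
  rw [mul_comm]
  exact norm_integral_le_of_norm_le_const (Eventually.of_forall fun g => (hρ.iso g x).le)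

open Classical in
/-- The averaging operator of a finite measure. -/
noncomputable def avm (ρ : G →* (H →L[ℂ] H)) (ν : Measure G) : H →L[ℂ] H :=
  if h : URep ρ ∧ IsFiniteMeasure ν then
    haveI := h.2
    LinearMap.mkContinuous
      { toFun := fun x => ∫ g, ρ g x ∂ν
        map_add' := fun x y => by
          simp only [map_add]
          exact integral_add (int_rep h.1 ν x) (int_rep h.1 ν y)
        map_smul' := fun c x => by
          simp only [map_smul, RingHom.id_apply]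
          exact integral_smul c _ } (ν.real Set.univ) (norm_int_rep h.1 ν)
  else 0

theorem avm_apply (hρ : URep ρ) (ν : Measure G) [h : IsFiniteMeasure ν] (x : H) :
    avm ρ ν x = ∫ g, ρ g x ∂ν := by
  rw [avm, dif_pos ⟨hρ, h⟩]
  rfl

theorem norm_avm (hρ : URep ρ) (ν : Measure G) [IsFiniteMeasure ν] (x : H) :
    ‖avm ρ ν x‖ ≤ ν.real Set.univ * ‖x‖ := by
  rw [avm_apply hρ]
  exact norm_int_rep hρ ν x

theorem inner_avm (hρ : URep ρ) (ν : Measure G) [IsFiniteMeasure ν] (R : H →L[ℂ] H) (w x : H) :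
    ⟪w, R (avm ρ ν x)⟫_ℂ = ∫ g, ⟪w, R (ρ g x)⟫_ℂ ∂ν := by
  rw [avm_apply hρ]
  exact (((innerSL ℂ w).comp R).integral_comp_comm (int_rep hρ ν x)).symm

theorem int_coef (hρ : URep ρ) (ν : Measure G) [IsFiniteMeasure ν] (R : H →L[ℂ] H) (w x : H) :
    Integrable (fun g => ⟪w, R (ρ g x)⟫_ℂ) ν :=
  ((innerSL ℂ w).comp R).integrable_comp (int_rep hρ ν x)

theorem re_avm (hρ : URep ρ) (ν : Measure G) [IsFiniteMeasure ν] (R : H →L[ℂ] H) (w x : H) :
    (⟪w, R (avm ρ ν x)⟫_ℂ).re = ∫ g, (⟪w, R (ρ g x)⟫_ℂ).re ∂ν := by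
  rw [inner_avm hρ]
  exact (Complex.reCLM.integral_comp_comm (int_coef hρ ν R w x)).symm

theorem int_re (hρ : URep ρ) (ν : Measure G) [IsFiniteMeasure ν] (R : H →L[ℂ] H) (w x : H) :
    Integrable (fun g => (⟪w, R (ρ g x)⟫_ℂ).re) ν :=
  Complex.reCLM.integrable_comp (int_coef hρ ν R w x)

theorem rep_avm (hρ : URep ρ) (ν : Measure G) [IsFiniteMeasure ν] (k : G) :
    ρ k * avm ρ ν = avm ρ (ν.map fun g => k * g) := by
  ext x
  rw [ContinuousLinearMap.mul_apply, avm_apply hρ, avm_apply hρ,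
    integral_map (measurable_const_mul k).aemeasurable (cont_rep hρ x).aestronglyMeasurable,
    ← (ρ k).integral_comp_comm (int_rep hρ ν x)]
  simp only [rmul]

theorem avm_rep (hρ : URep ρ) (ν : Measure G) [IsFiniteMeasure ν] (k : G) :
    avm ρ ν * ρ k = avm ρ (ν.map fun g => g * k) := by
  ext x
  rw [ContinuousLinearMap.mul_apply, avm_apply hρ, avm_apply hρ,
    integral_map (measurable_mul_const k).aemeasurable (cont_rep hρ x).aestronglyMeasurable]
  simp only [rmul]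

theorem avm_adj (hρ : URep ρ) (ν : Measure G) [IsFiniteMeasure ν] (x y : H) :
    ⟪avm ρ ν y, x⟫_ℂ = ⟪y, avm ρ (ν.map fun g => g⁻¹) x⟫_ℂ := by
  have h1 := inner_avm hρ ν 1 x y
  have h2 := inner_avm hρ (ν.map fun g => g⁻¹) 1 y x
  simp only [ContinuousLinearMap.one_apply] at h1 h2
  rw [h2, integral_map measurable_inv.aemeasurable
    (continuous_const.inner (cont_rep hρ x)).aestronglyMeasurable, ← inner_conj_symm, h1,
    ← integral_conj]
  simp only [inner_conj_symm, hρ.inner_left]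

/-- An invariant cone. -/
structure ICone (ρ : G →* (H →L[ℂ] H)) (C : Set H) : Prop where
  rep : URep ρ
  cone : Cone C
  inv : ∀ g, Pr C (ρ g)

variable {C : Set H}

theorem ICone.pr_avm (h : ICone ρ C) (ν : Measure G) [IsFiniteMeasure ν] : Pr C (avm ρ ν) :=
  fun x hx => h.cone.bid _ fun w hw => by
    have h1 := re_avm h.rep ν 1 w x
    simp only [ContinuousLinearMap.one_apply] at h1
    rw [h1]
    exact integral_nonneg fun g => hw _ (h.inv g x hx)

theorem ICone.le_avm (h : ICone ρ C) {ν ν' : Measure G} [IsFiniteMeasure ν] [IsFiniteMeasure ν']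
    (hν : ν ≤ ν') : Le C (avm ρ ν) (avm ρ ν') := by
  intro x hx w hw
  have h1 := re_avm h.rep ν 1 w x
  have h2 := re_avm h.rep ν' 1 w x
  have h3 := int_re h.rep ν' 1 w x
  simp only [ContinuousLinearMap.one_apply] at h1 h2 h3
  rw [h1, h2]
  exact integral_mono_measure hν (Eventually.of_forall fun g => hw _ (h.inv g x hx)) h3

theorem avm_sum (hρ : URep ρ) {ι : Type} (F : Finset ι) (ν : ι → Measure G)
    [∀ i, IsFiniteMeasure (ν i)] : avm ρ (∑ i ∈ F, ν i) = ∑ i ∈ F, avm ρ (ν i) := by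
  ext x
  rw [avm_apply hρ, integral_finset_sum_measure (fun i _ => int_rep hρ _ x),
    ContinuousLinearMap.sum_apply]
  simp only [avm_apply hρ]

theorem le_int (hρ : URep ρ) (ν : Measure G) [IsFiniteMeasure ν] {R S T : H →L[ℂ] H}
    (h : ∀ᵐ g ∂ν, Le C S (R * ρ g * T)) :
    Le C (((ν.real Set.univ : ℝ) : ℂ) • S) (R * avm ρ ν * T) := by
  intro x hx w hw
  change _ ≤ (⟪w, R (avm ρ ν (T x))⟫_ℂ).re
  rw [re_avm hρ, ContinuousLinearMap.smul_apply, inner_smul_right, Complex.re_ofReal_mul,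
    ← smul_eq_mul, ← integral_const]
  refine integral_mono_ae (integrable_const _) (int_re hρ ν R w (T x)) ?_
  filter_upwards [h] with g hg
  exact hg x hx w hw

theorem ICone.bd_rep_mul (h : ICone ρ C) {T : H →L[ℂ] H} {t : ℝ} (hT : Bd C T t) (g : G) :
    Bd C (ρ g * T) t := fun x hx => by
  rw [ContinuousLinearMap.mul_apply, h.rep.iso]
  exact hT x hx

theorem ICone.bd_mul_rep (h : ICone ρ C) {T : H →L[ℂ] H} {t : ℝ} (hT : Bd C T t) (g : G) :
    Bd C (T * ρ g) t := fun x hx => by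
  have := hT _ (h.inv g x hx)
  rwa [h.rep.iso] at this

theorem icone_du (hρ : URep ρ) {P : Set H} (h : P ⊆ Du P) (hP : ∀ g, Pr P (ρ g)) :
    ICone ρ (Du (Du P)) := by
  have h1 : ∀ Q : Set H, (∀ g, Pr Q (ρ g)) → ∀ g, Pr (Du Q) (ρ g) := by
    intro Q hQ g w hw x hx
    rw [hρ.inner_left]
    exact hw _ (hQ _ x hx)
  exact ⟨hρ, (cone_du h).1, h1 _ (h1 _ hP)⟩

end Vale.Agent.P092LG
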