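import Vale.Agent.P092LG.Haar

/-!
P092 (helper44), block B1: uniform exponential decay of smoothed matrix coefficients.
-/

set_option linter.all false

namespace Vale.Agent.P092LG

open Filter Topology MeasureTheory MeasureTheory.Measure Set
open scoped InnerProductSpace ComplexConjugate Pointwise ENNReal NNReal
open Vale.Agent.P092.H933 (Len URep)
open Vale.Agent.P092.H15 (Ctr HMG)

variable {G : Type} [Group G] [TopologicalSpace G] [IsTopologicalGroup G] [T2Space G]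
  [LocallyCompactSpace G] [SecondCountableTopology G] [MeasurableSpace G] [BorelSpace G]
  (μ : Measure G) [μ.IsHaarMeasure] [μ.IsMulRightInvariant]

section

variable {H : Type} [NormedAddCommGroup H] [InnerProductSpace ℂ H] [CompleteSpace H]
  {ρ : G →* (H →L[ℂ] H)} {C : Set H} {O B B' K : Set G}

theorem ICone.sandwich (h : ICone ρ C) (hO : IsCompact O) (hK : IsCompact K) {k k' : G}
    (hk : k ∈ K) (hk' : k' ∈ K) (g : G) :
    Le C (av μ ρ O * ρ (k * g * k') * av μ ρ O) (av μ ρ (O * K) * ρ g * av μ ρ (K * O)) := by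
  have h1 : Le C (av μ ρ O * ρ k) (av μ ρ (O * K)) := by
    rw [av_rep μ h.rep hO]
    refine h.le_av μ (hO.image (continuous_mul_const k)) (hO.mul hK) ?_
    rintro _ ⟨x, hx, rfl⟩
    exact mul_mem_mul hx hk
  have h2 : Le C (ρ k' * av μ ρ O) (av μ ρ (K * O)) := by
    rw [rep_av μ h.rep hO]
    refine h.le_av μ (hO.image (continuous_const_mul k')) (hK.mul hO) ?_
    rintro _ ⟨x, hx, rfl⟩
    exact mul_mem_mul hk' hx
  have e : av μ ρ O * ρ (k * g * k') * av μ ρ O = av μ ρ O * ρ k * (ρ g * (ρ k' * av μ ρ O)) := by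
    simp only [map_mul, mul_assoc]
  rw [e]
  refine (h1.mul_right ((h.inv g).mul ((h.inv k').mul (h.pr_av μ hO)))).trans ?_
  rw [← mul_assoc]
  exact h2.mul_left h.cone ((h.pr_av μ (hO.mul hK)).mul (h.inv g))

theorem ICone.bd_both (h : ICone ρ C) (hO : IsCompact O) (hB : IsCompact B) (hB' : IsCompact B')
    {F F' : Finset G} (hF : B ⊆ ⋃ k ∈ F, (fun g => k * g) '' O)
    (hF' : B' ⊆ ⋃ k ∈ F', (fun g => g * k) '' O) {g : G} {t : ℝ}
    (hb : Bd C (av μ ρ O * ρ g * av μ ρ O) t) :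
    Bd C (av μ ρ B * ρ g * av μ ρ B') (F.card * (F'.card * t)) := by
  rw [mul_assoc]
  refine h.bd_left μ hO hB hF ((h.inv g).mul (h.pr_av μ hB')) ?_
  rw [← mul_assoc]
  exact h.bd_right μ hO hB' hF' ((h.pr_av μ hO).mul (h.inv g)) hb

end

theorem step {O V K : Set G} (hO : IsCompact O) (hO1 : O ∈ 𝓝 (1 : G)) (hOV : O * O ⊆ V)
    (hK : IsCompact K) : ∃ M : ℝ, 0 < M ∧
    ∀ (H : Type) [NormedAddCommGroup H] [InnerProductSpace ℂ H] [CompleteSpace H]
      (ρ : G →* (H →L[ℂ] H)) (C : Set H), ICone ρ C → ∀ (p a : G) (s t : ℝ), 0 ≤ s → 0 ≤ t →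
      (∀ v ∈ V, ∃ k ∈ K, ∃ k' ∈ K, p * v * a = k * (p * a) * k') →
      Bd C (av μ ρ O * ρ p * av μ ρ O) s → Bd C (av μ ρ O * ρ a * av μ ρ O) t →
      Bd C (av μ ρ O * ρ (p * a) * av μ ρ O) (M * s * t) := by
  obtain ⟨F, hF⟩ := cover_left hO1 (hO.mul hK.inv)
  obtain ⟨F', hF'⟩ := cover_right hO1 (hK.inv.mul hO)
  have hm : 0 < μ.real O :=
    ENNReal.toReal_pos (measure_pos_of_mem_nhds μ hO1).ne' hO.measure_lt_top.ne
  refine ⟨(F.card * F'.card + 1) / μ.real O / μ.real O, by positivity, ?_⟩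
  intro H _ _ _ ρ C h p a s t hs ht hg hp ha
  haveI := fin_res μ hO
  have hA := h.pr_av μ hO
  have hS : Pr C (av μ ρ O * ρ (p * a) * av μ ρ O) := (hA.mul (h.inv _)).mul hA
  have hB := h.pr_av μ (hO.mul hK.inv)
  have hB' := h.pr_av μ (hK.inv.mul hO)
  have h1 : ∀ o ∈ O, ∀ o' ∈ O, Le C (av μ ρ O * ρ (p * a) * av μ ρ O)
      (av μ ρ (O * K⁻¹) * ρ p * ρ o * ρ o' * (ρ a * av μ ρ (K⁻¹ * O))) := by
    intro o ho o' ho'
    obtain ⟨k, hk, k', hk', e⟩ := hg _ (hOV (mul_mem_mul ho ho'))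
    have h2 := h.sandwich μ hO hK.inv (inv_mem_inv.2 hk) (inv_mem_inv.2 hk') (p * (o * o') * a)
    rw [e, show k⁻¹ * (k * (p * a) * k') * k'⁻¹ = p * a by group, ← e] at h2
    simpa only [map_mul, mul_assoc] using h2
  have h2 : ∀ o ∈ O, Le C (((μ.real O : ℝ) : ℂ) • (av μ ρ O * ρ (p * a) * av μ ρ O))
      (av μ ρ (O * K⁻¹) * ρ p * ρ o * (av μ ρ O * (ρ a * av μ ρ (K⁻¹ * O)))) := by
    intro o ho
    have h3 := le_int h.rep (μ.restrict O) ((ae_restrict_iff' hO.measurableSet).2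
      (Eventually.of_forall fun o' ho' => h1 o ho o' ho'))
    rw [measureReal_restrict_apply_univ, mul_assoc] at h3
    exact h3
  have h3 := le_int h.rep (μ.restrict O) ((ae_restrict_iff' hO.measurableSet).2
    (Eventually.of_forall h2))
  rw [measureReal_restrict_apply_univ] at h3
  have h4 : Bd C (av μ ρ (O * K⁻¹) * ρ p * av μ ρ O) (F.card * s) := by
    rw [mul_assoc] at hp ⊢
    exact h.bd_left μ hO (hO.mul hK.inv) hF ((h.inv p).mul hA) hp
  have h5 : Bd C (av μ ρ O * (ρ a * av μ ρ (K⁻¹ * O))) (F'.card * t) := by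
    rw [← mul_assoc]
    exact h.bd_right μ hO (hK.inv.mul hO) hF' (hA.mul (h.inv a)) ha
  have h6 := h4.mul h5 (hA.mul ((h.inv a).mul hB')) (by positivity)
  have h7 := Bd.of_le h.cone ((hS.smul h.cone hm.le).smul h.cone hm.le) h3 h6
  refine ((h7.of_smul hm).of_smul hm).mono ?_
  have e : (F.card * F'.card + 1 : ℝ) / μ.real O / μ.real O * s * t =
      (F.card * s * (F'.card * t) + s * t) / μ.real O / μ.real O := by ring
  rw [e]
  gcongr
  exact le_add_of_nonneg_right (mul_nonneg hs ht)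

theorem exists_O {V : Set G} (hV : V ∈ 𝓝 (1 : G)) :
    ∃ O : Set G, IsCompact O ∧ O ∈ 𝓝 (1 : G) ∧ O⁻¹ = O ∧ O * O ⊆ V := by
  obtain ⟨K, hK, hK1⟩ := exists_compact_mem_nhds (1 : G)
  obtain ⟨O, h1, h2, h3, h4⟩ := exists_closed_nhds_one_inv_eq_mul_subset (inter_mem hV hK1)
  refine ⟨O, hK.of_isClosed_subset h2 fun x hx => ?_, h1, h3, h4.trans inter_subset_left⟩
  have := h4 (mul_mem_mul hx (mem_of_mem_nhds h1))
  rw [mul_one] at this
  exact this.2

/-- **Exponential decay on invariant cones.** -/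
theorem dec_cone (hG : Geo G) {I : Type} {S : I → Set G} (hS : HMF S) {K : Set G}
    (hK : IsCompact K) {ℓ : G → ℝ} (hℓ : Sub ℓ) : ∃ C₀ c : ℝ, 0 < C₀ ∧ 0 < c ∧
    ∀ (H : Type) [NormedAddCommGroup H] [InnerProductSpace ℂ H] [CompleteSpace H]
      (ρ : G →* (H →L[ℂ] H)) (C : Set H), ICone ρ C → (∀ i, NoFix ρ (S i)) → ∀ g,
      Bd C (av μ ρ K * ρ g * av μ ρ K) (C₀ * Real.exp (-(c * ℓ g))) := by
  obtain ⟨V, hV, K₀, hK₀, hG⟩ := hG
  obtain ⟨O, hO, hO1, hOs, hOV⟩ := exists_O hV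
  obtain ⟨M, hM, hstep⟩ := step μ hO hO1 hOV hK₀
  obtain ⟨L, hL, hmix⟩ := umix μ hS hO hOs (δ := Real.exp (-1) / M) (by positivity)
  obtain ⟨L', hL', hG⟩ := hG L hL
  obtain ⟨F, hF⟩ := cover_left hO1 (hK.mul hL')
  obtain ⟨F', hF'⟩ := cover_right hO1 (hL'.mul hK)
  obtain ⟨B₀, hB₀⟩ := hℓ.2 _ (hL'.insert 1)
  set B := max B₀ 1 with hBd
  have hB : ∀ g ∈ insert 1 L', ℓ g ≤ B := fun g hg => (hB₀ g hg).trans (le_max_left _ _)
  have hB1 : 0 < B := lt_of_lt_of_le one_pos (le_max_right _ _)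
  refine ⟨(F.card * (F'.card * (μ.real O * μ.real O)) + 1) * Real.exp 3, 1 / B, by positivity,
    by positivity, ?_⟩
  intro H _ _ _ ρ C h hN g
  obtain ⟨n, p, hp0, ⟨k, hk, k', hk', rfl⟩, hp⟩ := hG g
  have h1 : ∀ i ≤ n, Bd C (av μ ρ O * ρ (p i) * av μ ρ O) (μ.real O * μ.real O * Real.exp (-i)) ∧
      ℓ (p i) ≤ B * (i + 1) := by
    intro i
    induction i with
    | zero =>
      intro _
      rw [hp0]
      refine ⟨fun x _ => ?_, by simpa using hB 1 (mem_insert _ _)⟩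
      rw [map_one, mul_one, ContinuousLinearMap.mul_apply]
      refine (norm_av μ h.rep hO _).trans ?_
      simp only [Nat.cast_zero, neg_zero, Real.exp_zero, mul_one]
      rw [mul_assoc]
      exact mul_le_mul_of_nonneg_left (norm_av μ h.rep hO _) measureReal_nonneg
    | succ i ih =>
      intro hi
      obtain ⟨ih1, ih2⟩ := ih (Nat.le_of_succ_le hi)
      obtain ⟨q1, q2, q3⟩ := hp i hi
      have e : p i * ((p i)⁻¹ * p (i + 1)) = p (i + 1) := mul_inv_cancel_left _ _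
      constructor
      · have h2 := hstep H ρ C h (p i) _ _ _ (by positivity) (by positivity) (by rwa [e]) ih1
          (fun x _ => hmix H ρ h.rep hN _ q2 x)
        rw [e] at h2
        refine h2.mono (le_of_eq ?_)
        push_cast
        rw [neg_add, Real.exp_add]
        field_simp
      · have h2 := hℓ.1 (p i) ((p i)⁻¹ * p (i + 1))
        rw [e] at h2
        have h3 := hB _ (mem_insert_of_mem _ q1)
        push_cast
        linarith
  obtain ⟨h2, h3⟩ := h1 n le_rfl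
  have hA := h.pr_av μ hK
  refine (Bd.of_le h.cone ((hA.mul (h.inv _)).mul hA) (h.sandwich μ hK hL' hk hk' (p n))
    (h.bd_both μ hO (hK.mul hL') (hL'.mul hK) hF hF' h2)).mono ?_
  have h4 : ℓ (k * p n * k') ≤ B * (n + 3) := by
    have a1 := hℓ.1 (k * p n) k'
    have a2 := hℓ.1 k (p n)
    have a3 := hB _ (mem_insert_of_mem _ hk)
    have a4 := hB _ (mem_insert_of_mem _ hk')
    linarith
  have h5 : Real.exp (-n) ≤ Real.exp 3 * Real.exp (-(1 / B * ℓ (k * p n * k'))) := by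
    rw [← Real.exp_add]
    refine Real.exp_le_exp.2 ?_
    have : 1 / B * ℓ (k * p n * k') ≤ n + 3 := by
      rw [one_div, inv_mul_le_iff₀ hB1]
      exact h4
    linarith
  have h6 : (0 : ℝ) ≤ F.card * (F'.card * (μ.real O * μ.real O)) := by positivity
  calc (F.card : ℝ) * (F'.card * (μ.real O * μ.real O * Real.exp (-n)))
      = F.card * (F'.card * (μ.real O * μ.real O)) * Real.exp (-n) := by ring
    _ ≤ (F.card * (F'.card * (μ.real O * μ.real O)) + 1) *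
        (Real.exp 3 * Real.exp (-(1 / B * ℓ (k * p n * k')))) :=
      mul_le_mul (by linarith) h5 (Real.exp_pos _).le (by positivity)
    _ = _ := by ring

theorem IsSq.icone {𝓗 : Type} [NormedAddCommGroup 𝓗] [InnerProductSpace ℂ 𝓗] [CompleteSpace 𝓗]
    {σ : G →* (𝓗 →L[ℂ] 𝓗)} {H : Type} [NormedAddCommGroup H] [InnerProductSpace ℂ H]
    [CompleteSpace H] {ρ : G →* (H →L[ℂ] H)} {sq : 𝓗 → H} (h : IsSq σ ρ sq) :
    ICone ρ (Du (Du (range sq))) ∧ range sq ⊆ Du (Du (range sq)) := by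
  have h1 : range sq ⊆ Du (range sq) := by
    rintro _ ⟨x, rfl⟩ _ ⟨y, rfl⟩
    rw [h.inn, Complex.ofReal_re]
    positivity
  refine ⟨icone_du h.rep h1 ?_, (cone_du h1).2⟩
  rintro g _ ⟨x, rfl⟩
  exact ⟨_, (h.cov g x).symm⟩

/-- **Exponential decay of the mean square of the matrix coefficients.** -/
theorem dec (hG : Geo G) {I : Type} {S : I → Set G} (hS : HMF S) {K : Set G}
    (hK : IsCompact K) {ℓ : G → ℝ} (hℓ : Sub ℓ) : ∃ C₀ c : ℝ, 0 < C₀ ∧ 0 < c ∧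
    ∀ (𝓗 : Type) [NormedAddCommGroup 𝓗] [InnerProductSpace ℂ 𝓗] [CompleteSpace 𝓗]
      (σ : G →* (𝓗 →L[ℂ] 𝓗)), URep σ → (∀ i, NoFix σ (S i)) → ∀ g ξ η,
      ∫ x in K, ∫ y in K, ‖⟪η, σ (x * g * y) ξ⟫_ℂ‖ ^ 2 ∂μ ∂μ ≤
        C₀ * Real.exp (-(c * ℓ g)) * ‖ξ‖ ^ 2 * ‖η‖ ^ 2 := by
  obtain ⟨C₀, c, hC, hc, h⟩ := dec_cone μ hG hS hK hℓ
  refine ⟨C₀, c, hC, hc, ?_⟩
  intro 𝓗 _ _ _ σ hσ hN g ξ η
  obtain ⟨H, i1, i2, i3, ρ, sq, hq⟩ := exists_sq hσ
  haveI := fin_res μ hK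
  have h1 := h H ρ _ hq.icone.1 (hq.noFix hS hσ hN) g (sq ξ) (hq.icone.2 ⟨ξ, rfl⟩)
  have h2 : (⟪sq η, (av μ ρ K * ρ g * av μ ρ K) (sq ξ)⟫_ℂ).re =
      ∫ x in K, ∫ y in K, ‖⟪η, σ (x * g * y) ξ⟫_ℂ‖ ^ 2 ∂μ ∂μ := by
    have h3 := re_avm hq.rep (μ.restrict K) 1 (sq η) (ρ g (av μ ρ K (sq ξ)))
    refine h3.trans (integral_congr_ae (Eventually.of_forall fun x => ?_))
    have h4 := re_avm hq.rep (μ.restrict K) (ρ x * ρ g) (sq η) (sq ξ)
    refine h4.trans (integral_congr_ae (Eventually.of_forall fun y => ?_))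
    simp only [ContinuousLinearMap.mul_apply, hq.cov, hq.inn, Complex.ofReal_re, rmul]
  rw [← h2]
  refine (Complex.re_le_norm _).trans ((norm_inner_le_norm _ _).trans ?_)
  rw [hq.norm] at h1 ⊢
  rw [mul_comm]
  exact mul_le_mul_of_nonneg_right h1 (by positivity)

end Vale.Agent.P092LG
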