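import Vale.Agent.P092LG.Dec
import Mathlib.Probability.ConditionalProbability

/-!
P092 (helper44), block B1: decay for averaging operators and for almost invariant vectors.
-/

set_option linter.all false

namespace Vale.Agent.P092LG

open Filter Topology MeasureTheory MeasureTheory.Measure Set
open scoped InnerProductSpace ComplexConjugate Pointwise ENNReal NNReal
open Vale.Agent.P092.H933 (Len URep)
open Vale.Agent.P092.H15 (Ctr HMG)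

theorem sq_int_le {X : Type} [MeasurableSpace X] (ν : Measure X) [IsFiniteMeasure ν] {f F : X → ℝ}
    (hf : Integrable f ν) (hF : Integrable F ν) (h : ∀ x, f x ^ 2 ≤ F x) :
    (∫ x, f x ∂ν) ^ 2 ≤ ν.real univ * ∫ x, F x ∂ν := by
  set a := ∫ x, f x ∂ν with ha
  set m := ν.real univ with hm
  have hm0 : 0 ≤ m := measureReal_nonneg
  rcases hm0.eq_or_lt with h0 | h0
  · have : ν = 0 := by
      have h1 := (measureReal_eq_zero_iff (μ := ν) (s := univ) (measure_ne_top _ _)).1 h0.symm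
      exact Measure.measure_univ_eq_zero.1 h1
    simp [ha, this, ← h0]
  have h1 : ∫ x, (2 * (a / m) * f x - (a / m) ^ 2) ∂ν ≤ ∫ x, F x ∂ν :=
    integral_mono ((hf.const_mul _).sub (integrable_const _)) hF fun x => by
      have := h x
      nlinarith [sq_nonneg (f x - a / m)]
  rw [integral_sub (hf.const_mul _) (integrable_const _), integral_const_mul, integral_const,
    smul_eq_mul, ← ha, ← hm] at h1
  have e : a ^ 2 = m * (2 * (a / m) * a - m * (a / m) ^ 2) := by field_simp; ring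
  rw [e]
  exact mul_le_mul_of_nonneg_left h1 hm0

variable {G : Type} [Group G] [TopologicalSpace G] [IsTopologicalGroup G] [T2Space G]
  [LocallyCompactSpace G] [SecondCountableTopology G] [MeasurableSpace G] [BorelSpace G]

section

variable {𝓗 : Type} [NormedAddCommGroup 𝓗] [InnerProductSpace ℂ 𝓗] [CompleteSpace 𝓗]
  {σ : G →* (𝓗 →L[ℂ] 𝓗)} {H : Type} [NormedAddCommGroup H] [InnerProductSpace ℂ H]
  [CompleteSpace H] {ρ : G →* (H →L[ℂ] H)} {sq : 𝓗 → H}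

theorem avm_smul (hσ : URep σ) (ν : Measure G) [IsFiniteMeasure ν] (M : ℝ≥0) :
    avm σ (M • ν) = ((M : ℝ) : ℂ) • avm σ ν := by
  ext x
  rw [avm_apply hσ, ContinuousLinearMap.smul_apply, avm_apply hσ, integral_smul_nnreal_measure,
    Complex.coe_smul]
  rfl

theorem IsSq.sq_avm (h : IsSq σ ρ sq) (hσ : URep σ) (ν : Measure G) [IsFiniteMeasure ν] (g : G)
    (ξ η : 𝓗) : ‖⟪η, σ g (avm σ ν ξ)⟫_ℂ‖ ^ 2 ≤
      ν.real univ * (⟪sq η, ρ g (avm ρ ν (sq ξ))⟫_ℂ).re := by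
  rw [inner_avm hσ, re_avm h.rep]
  refine le_trans (pow_le_pow_left₀ (norm_nonneg _) (norm_integral_le_integral_norm _) 2) ?_
  refine sq_int_le ν (int_coef hσ ν _ _ _).norm (int_re h.rep ν _ _ _) fun x => le_of_eq ?_
  simp only [h.cov, h.inn, Complex.ofReal_re]

theorem IsSq.sq_avm2 (h : IsSq σ ρ sq) (hσ : URep σ) (ν₁ ν₂ : Measure G) [IsFiniteMeasure ν₁]
    [IsFiniteMeasure ν₂] (g : G) (ξ η : 𝓗) :
    ‖⟪η, (avm σ ν₁ * σ g * avm σ ν₂) ξ⟫_ℂ‖ ^ 2 ≤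
      ν₁.real univ * (ν₂.real univ * (⟪sq η, (avm ρ ν₁ * ρ g * avm ρ ν₂) (sq ξ)⟫_ℂ).re) := by
  have h1 := inner_avm hσ ν₁ 1 η (σ g (avm σ ν₂ ξ))
  have h2 := re_avm h.rep ν₁ 1 (sq η) (ρ g (avm ρ ν₂ (sq ξ)))
  have h3 := int_coef hσ ν₁ 1 η (σ g (avm σ ν₂ ξ))
  have h4 := int_re h.rep ν₁ 1 (sq η) (ρ g (avm ρ ν₂ (sq ξ)))
  simp only [ContinuousLinearMap.one_apply, ContinuousLinearMap.mul_apply] at h1 h2 h3 h4 ⊢
  rw [h1, h2, ← integral_const_mul]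
  refine le_trans (pow_le_pow_left₀ (norm_nonneg _) (norm_integral_le_integral_norm _) 2) ?_
  refine sq_int_le ν₁ h3.norm (h4.const_mul _) fun x => ?_
  have := h.sq_avm hσ ν₂ (x * g) ξ η
  rwa [rmul, rmul] at this

theorem avm_sub_le (hσ : URep σ) (ν : Measure G) [IsProbabilityMeasure ν] {ξ : 𝓗} {a : ℝ}
    (h : ∀ᵐ v ∂ν, ‖σ v ξ - ξ‖ ≤ a) : ‖avm σ ν ξ - ξ‖ ≤ a := by
  have e : avm σ ν ξ - ξ = ∫ v, (σ v ξ - ξ) ∂ν := by
    rw [integral_sub (int_rep hσ ν ξ) (integrable_const _), avm_apply hσ]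
    simp
  rw [e]
  simpa using norm_integral_le_of_norm_le_const h

theorem avm_inner_sub_le (hσ : URep σ) (ν : Measure G) [IsProbabilityMeasure ν] {η : 𝓗} {b : ℝ}
    (h : ∀ᵐ v ∂ν, ‖σ v⁻¹ η - η‖ ≤ b) (ζ : 𝓗) : ‖⟪η, avm σ ν ζ⟫_ℂ - ⟪η, ζ⟫_ℂ‖ ≤ b * ‖ζ‖ := by
  have h1 := inner_avm hσ ν 1 η ζ
  have h3 := int_coef hσ ν 1 η ζ
  simp only [ContinuousLinearMap.one_apply] at h1 h3
  have e : ⟪η, avm σ ν ζ⟫_ℂ - ⟪η, ζ⟫_ℂ = ∫ v, ⟪σ v⁻¹ η - η, ζ⟫_ℂ ∂ν := by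
    simp only [inner_sub_left, ← hσ.inner_right]
    rw [integral_sub h3 (integrable_const _), h1]
    simp
  rw [e]
  have h4 : ∀ᵐ v ∂ν, ‖⟪σ v⁻¹ η - η, ζ⟫_ℂ‖ ≤ b * ‖ζ‖ := by
    filter_upwards [h] with v hv
    exact (norm_inner_le_norm _ _).trans (mul_le_mul_of_nonneg_right hv (norm_nonneg _))
  simpa using norm_integral_le_of_norm_le_const h4

end

variable (μ : Measure G) [μ.IsHaarMeasure] [μ.IsMulRightInvariant]

theorem fin_of_le {K : Set G} (hK : IsCompact K) {ν : Measure G} {M : ℝ≥0}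
    (h : ν ≤ M • μ.restrict K) : IsFiniteMeasure ν := by
  haveI := fin_res μ hK
  exact isFiniteMeasure_of_le _ h

/-- **Exponential decay for dominated averages.** -/
theorem dec_avm (hG : Geo G) {I : Type} {S : I → Set G} (hS : HMF S) {K : Set G}
    (hK : IsCompact K) {ℓ : G → ℝ} (hℓ : Sub ℓ) : ∃ C₀ c : ℝ, 0 < C₀ ∧ 0 < c ∧
    ∀ (𝓗 : Type) [NormedAddCommGroup 𝓗] [InnerProductSpace ℂ 𝓗] [CompleteSpace 𝓗]
      (σ : G →* (𝓗 →L[ℂ] 𝓗)), URep σ → (∀ i, NoFix σ (S i)) →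
      ∀ (ν₁ ν₂ : Measure G) (M₁ M₂ : ℝ≥0), ν₁ ≤ M₁ • μ.restrict K → ν₂ ≤ M₂ • μ.restrict K →
      ∀ g ξ, ‖(avm σ ν₁ * σ g * avm σ ν₂) ξ‖ ≤
        C₀ * √(ν₁.real univ * ν₂.real univ * M₁ * M₂) * Real.exp (-(c * ℓ g)) * ‖ξ‖ := by
  obtain ⟨C₀, c, hC, hc, h⟩ := dec_cone μ hG hS hK hℓ
  refine ⟨√C₀, c / 2, Real.sqrt_pos.2 hC, by positivity, ?_⟩
  intro 𝓗 _ _ _ σ hσ hN ν₁ ν₂ M₁ M₂ h₁ h₂ g ξ
  obtain ⟨H, i1, i2, i3, ρ, sq, hq⟩ := exists_sq hσ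
  haveI := fin_res μ hK
  haveI := fin_of_le μ hK h₁
  haveI := fin_of_le μ hK h₂
  obtain ⟨hI, hP⟩ := hq.icone
  have h1 := h H ρ _ hI (hq.noFix hS hσ hN) g
  have hA := hI.pr_av μ hK
  have h2 : Le (Du (Du (range sq))) (avm ρ ν₁ * ρ g * avm ρ ν₂)
      (avm ρ (M₁ • μ.restrict K) * ρ g * avm ρ (M₂ • μ.restrict K)) := by
    refine (((hI.le_avm h₁).mul_right (hI.inv g)).mul_right (hI.pr_avm ν₂)).trans ?_
    exact (hI.le_avm h₂).mul_left hI.cone ((hI.pr_avm _).mul (hI.inv g))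
  set z := (avm σ ν₁ * σ g * avm σ ν₂) ξ with hz
  have h3 := h2 (sq ξ) (hP ⟨ξ, rfl⟩) (sq z) (hI.cone.pos (hP ⟨z, rfl⟩))
  have h4 := hq.sq_avm2 hσ ν₁ ν₂ g ξ z
  rw [avm_smul hq.rep, avm_smul hq.rep, smul_mul_assoc, smul_mul_assoc, mul_smul_comm,
    ContinuousLinearMap.smul_apply, ContinuousLinearMap.smul_apply, inner_smul_right,
    inner_smul_right, Complex.re_ofReal_mul, Complex.re_ofReal_mul] at h3
  have h5 : (⟪sq z, (av μ ρ K * ρ g * av μ ρ K) (sq ξ)⟫_ℂ).re ≤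
      ‖z‖ ^ 2 * (C₀ * Real.exp (-(c * ℓ g)) * ‖ξ‖ ^ 2) := by
    refine (Complex.re_le_norm _).trans ((norm_inner_le_norm _ _).trans ?_)
    have := h1 _ (hP ⟨ξ, rfl⟩)
    rw [hq.norm] at this ⊢
    exact mul_le_mul_of_nonneg_left this (by positivity)
  rw [← hz, ← inner_self_re_eq_norm, inner_self_eq_norm_sq] at h4
  have h6 : (‖z‖ ^ 2) ^ 2 ≤ ‖z‖ ^ 2 * (ν₁.real univ * ν₂.real univ * M₁ * M₂ *
      (C₀ * Real.exp (-(c * ℓ g)) * ‖ξ‖ ^ 2)) := by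
    refine h4.trans ?_
    have h7 : (⟪sq z, (avm ρ ν₁ * ρ g * avm ρ ν₂) (sq ξ)⟫_ℂ).re ≤
        M₁ * (M₂ * (‖z‖ ^ 2 * (C₀ * Real.exp (-(c * ℓ g)) * ‖ξ‖ ^ 2))) :=
      h3.trans (mul_le_mul_of_nonneg_left (mul_le_mul_of_nonneg_left h5 M₂.2) M₁.2)
    calc _ ≤ ν₁.real univ * (ν₂.real univ *
          (M₁ * (M₂ * (‖z‖ ^ 2 * (C₀ * Real.exp (-(c * ℓ g)) * ‖ξ‖ ^ 2))))) := by gcongr
      _ = _ := by ring
  have h8 : ‖z‖ ^ 2 ≤ ν₁.real univ * ν₂.real univ * M₁ * M₂ *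
      (C₀ * Real.exp (-(c * ℓ g)) * ‖ξ‖ ^ 2) := by
    rcases (sq_nonneg ‖z‖).eq_or_lt with h0 | h0
    · rw [← h0]
      positivity
    · rw [pow_two (‖z‖ ^ 2)] at h6
      exact le_of_mul_le_mul_left h6 h0
  refine (sq_le_sq₀ (norm_nonneg _) (by positivity)).1 (h8.trans (le_of_eq ?_))
  rw [mul_pow, mul_pow, mul_pow, Real.sq_sqrt hC.le, Real.sq_sqrt (by positivity),
    ← Real.exp_nat_mul]
  rw [show ((2 : ℕ) : ℝ) * -(c / 2 * ℓ g) = -(c * ℓ g) by push_cast; ring]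
  ring

/-- **Exponential decay for almost invariant vectors.** -/
theorem dec_lip (hG : Geo G) {I : Type} {S : I → Set G} (hS : HMF S) {K : Set G}
    (hK : IsCompact K) {ℓ : G → ℝ} (hℓ : Sub ℓ) : ∃ C₀ c : ℝ, 0 < C₀ ∧ 0 < c ∧
    ∀ (𝓗 : Type) [NormedAddCommGroup 𝓗] [InnerProductSpace ℂ 𝓗] [CompleteSpace 𝓗]
      (σ : G →* (𝓗 →L[ℂ] 𝓗)), URep σ → (∀ i, NoFix σ (S i)) →
      ∀ O : Set G, MeasurableSet O → O ⊆ K → μ O ≠ 0 → ∀ (ξ η : 𝓗) (a b : ℝ),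
      (∀ v ∈ O, ‖σ v ξ - ξ‖ ≤ a) → (∀ v ∈ O, ‖σ v⁻¹ η - η‖ ≤ b) → ∀ g,
      ‖⟪η, σ g ξ⟫_ℂ‖ ≤ C₀ / μ.real O * Real.exp (-(c * ℓ g)) * ‖ξ‖ * ‖η‖ + a * ‖η‖ + b * ‖ξ‖ := by
  obtain ⟨C₀, c, hC, hc, h⟩ := dec_avm μ hG hS hK hℓ
  refine ⟨C₀, c, hC, hc, ?_⟩
  intro 𝓗 _ _ _ σ hσ hN O hO hOK hO0 ξ η a b ha hb g
  have hfin : μ O ≠ ∞ := ((measure_mono hOK).trans_lt hK.measure_lt_top).ne
  haveI := ProbabilityTheory.cond_isProbabilityMeasure_of_finite hO0 hfin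
  set ν := ProbabilityTheory.cond μ O with hν
  have hle : ν ≤ (μ O)⁻¹.toNNReal • μ.restrict K := by
    rw [hν, ProbabilityTheory.cond, ENNReal.smul_def,
      ENNReal.coe_toNNReal (ENNReal.inv_ne_top.2 hO0)]
    intro A
    rw [Measure.smul_apply, Measure.smul_apply]
    exact mul_le_mul_right (restrict_mono hOK le_rfl A) _
  have hae : ∀ᵐ v ∂ν, v ∈ O := ProbabilityTheory.ae_cond_mem hO
  have h1 := h 𝓗 σ hσ hN ν ν _ _ hle hle g ξ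
  have e : √(ν.real univ * ν.real univ * ((μ O)⁻¹.toNNReal : ℝ) * ((μ O)⁻¹.toNNReal : ℝ)) =
      (μ.real O)⁻¹ := by
    rw [probReal_univ, one_mul, one_mul, Real.sqrt_mul_self (NNReal.coe_nonneg _)]
    exact ENNReal.toReal_inv _
  rw [e, ← div_eq_mul_inv] at h1
  have h2 := avm_sub_le hσ ν (hae.mono ha)
  have h3 := avm_inner_sub_le hσ ν (hae.mono hb) (σ g (avm σ ν ξ))
  have h4 : ‖avm σ ν ξ‖ ≤ ‖ξ‖ := by simpa using norm_avm hσ ν ξ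
  have hb0 : 0 ≤ b := by
    obtain ⟨v, hv⟩ := hae.exists
    exact (norm_nonneg _).trans (hb v hv)
  have e2 : ⟪η, σ g ξ⟫_ℂ = ⟪η, (avm σ ν * σ g * avm σ ν) ξ⟫_ℂ - ⟪η, σ g (avm σ ν ξ - ξ)⟫_ℂ -
      (⟪η, avm σ ν (σ g (avm σ ν ξ))⟫_ℂ - ⟪η, σ g (avm σ ν ξ)⟫_ℂ) := by
    rw [map_sub, inner_sub_right, ContinuousLinearMap.mul_apply, ContinuousLinearMap.mul_apply]
    ring
  rw [e2]
  refine (norm_sub_le _ _).trans (add_le_add ((norm_sub_le _ _).trans (add_le_add ?_ ?_)) ?_)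
  · refine (norm_inner_le_norm _ _).trans ?_
    rw [mul_comm]
    exact mul_le_mul_of_nonneg_right h1 (norm_nonneg _)
  · refine (norm_inner_le_norm _ _).trans ?_
    rw [hσ.iso, mul_comm]
    exact mul_le_mul_of_nonneg_right h2 (norm_nonneg _)
  · rw [hσ.iso] at h3
    exact h3.trans (mul_le_mul_of_nonneg_left h4 hb0)

end Vale.Agent.P092LG
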