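import Vale.Agent.P092.H15.HMAbs
import Vale.Agent.P092.UN.StM

/-!
P092 (helper44), block B1: definitions for the uniform decay of matrix coefficients and the gap.
-/

set_option linter.all false

namespace Vale.Agent.P092LG

open Filter Topology
open Vale.Agent.P092.H933 (Len URep)
open Vale.Agent.P092.H15 (Ctr HMG)

variable {G : Type} [Group G] [TopologicalSpace G]

/-- Chains of good steps (what the Cartan decomposition and the big cell give). -/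
def Geo (G : Type) [Group G] [TopologicalSpace G] : Prop :=
  ∃ V ∈ 𝓝 (1 : G), ∃ K : Set G, IsCompact K ∧ ∀ L : Set G, IsCompact L →
    ∃ L' : Set G, IsCompact L' ∧ ∀ g : G, ∃ (n : ℕ) (p : ℕ → G), p 0 = 1 ∧
      (∃ k ∈ L', ∃ k' ∈ L', g = k * p n * k') ∧
      ∀ i < n, (p i)⁻¹ * p (i + 1) ∈ L' ∧ (p i)⁻¹ * p (i + 1) ∉ L ∧
        ∀ v ∈ V, ∃ k ∈ K, ∃ k' ∈ K, p i * v * ((p i)⁻¹ * p (i + 1)) = k * p (i + 1) * k'

/-- No vector other than zero is fixed by the set `S`. -/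
def NoFix {𝓗 : Type} [NormedAddCommGroup 𝓗] [InnerProductSpace ℂ 𝓗] (σ : G →* (𝓗 →L[ℂ] 𝓗))
    (S : Set G) : Prop :=
  ∀ v, (∀ g ∈ S, σ g v = v) → v = 0

/-- A compact subset of `S` is a Kazhdan set for the representations without `S`-fixed vectors. -/
def KazS (S : Set G) : Prop :=
  ∃ Q : Set G, Q ⊆ S ∧ IsCompact Q ∧ ∃ κ : ℝ, 0 < κ ∧
    ∀ (𝓗 : Type) [NormedAddCommGroup 𝓗] [InnerProductSpace ℂ 𝓗] [CompleteSpace 𝓗]
      (σ : G →* (𝓗 →L[ℂ] 𝓗)), URep σ → NoFix σ S → ∀ v, ∃ g ∈ Q, κ * ‖v‖ ≤ ‖σ g v - v‖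

/-- Howe-Moore and Kazhdan for a family of subsets (the simple factors). -/
def HMF {I : Type} (S : I → Set G) : Prop :=
  (∀ i, KazS (S i) ∧ ¬ IsCompact (closure (S i))) ∧
    ∀ U : Ultrafilter G, (U : Filter G) ≤ cocompact G → ∃ i, ∀ f : G → ℝ, Len f →
      (∀ g, Ctr U g → f g = 0) → ∀ g ∈ S i, f g = 0

/-- A subadditive function which is bounded above on the compact sets. -/
def Sub (ℓ : G → ℝ) : Prop :=
  (∀ g h, ℓ (g * h) ≤ ℓ g + ℓ h) ∧ ∀ K : Set G, IsCompact K → ∃ B, ∀ g ∈ K, ℓ g ≤ B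

theorem KazS.of_hom {H : Type} [Group H] [TopologicalSpace H] [IsTopologicalGroup G]
    (φ : H →* G) (hφ : Continuous φ)
    (h : Vale.Agent.P092.UN.KazT H) : KazS (Set.range φ) := by
  obtain ⟨Q, κ, hQ, hκ, h⟩ := h
  refine ⟨φ '' Q, Set.image_subset_range _ _, hQ.image hφ, κ, hκ, ?_⟩
  intro 𝓗 _ _ _ σ hσ hN v
  have h1 : ∀ v, Continuous fun g => (σ.comp φ) g v := fun v =>
    continuous_iff_continuousAt.2 fun g =>
      hσ.tendsto (hφ.continuousAt (x := g)) tendsto_const_nhds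
  obtain ⟨g, hg, hv⟩ := h 𝓗 (σ.comp φ) (fun g v => hσ.iso _ _) h1
    (fun v hv => hN v (by rintro _ ⟨g, rfl⟩; exact hv g)) v
  exact ⟨φ g, ⟨g, hg, rfl⟩, hv⟩

theorem hmf_of [IsTopologicalGroup G] [NoncompactSpace G] (h : HMG G)
    (hT : Vale.Agent.P092.UN.KazT G) : HMF (fun _ : Unit => (Set.univ : Set G)) := by
  refine ⟨fun _ => ⟨?_, ?_⟩, fun U hU => ⟨(), fun f hf hc g _ => h U hU f hf hc g⟩⟩
  · have := KazS.of_hom (MonoidHom.id G) continuous_id hT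
    simpa using this
  · rw [closure_univ]
    exact noncompact_univ G

end Vale.Agent.P092LG
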