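import Vale.Agent.P092LG.Dec2
import Vale.Agent.P092.H790.Ind
import Mathlib.MeasureTheory.Group.IntegralConvolution
import Mathlib.MeasureTheory.Function.LpSpace.ContinuousCompMeasurePreserving

/-!
P092 (helper44), block B1: the norm of a probability measure in a mixing representation is at most
a power of its norm in the regular representation.
-/

set_option linter.all false

namespace Vale.Agent.P092LG

open Filter Topology MeasureTheory MeasureTheory.Measure Set
open scoped InnerProductSpace ComplexConjugate Pointwise ENNReal NNReal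
open Vale.Agent.P092.H933 (Len URep)
open Vale.Agent.P092.H15 (Ctr HMG)
open Vale.Agent.P092.H790 (koo koo_ae norm_koo)

theorem le_of_pow_two_pow {x θ C : ℝ} (hθ : 0 < θ) (h : ∀ k : ℕ, x ^ 2 ^ k ≤ C * θ ^ 2 ^ k) :
    x ≤ θ := by
  by_contra h1
  rw [not_le] at h1
  have h2 : 1 < x / θ := (one_lt_div hθ).2 h1
  have h3 := (tendsto_pow_atTop_atTop_of_one_lt h2).comp
    (tendsto_pow_atTop_atTop_of_one_lt (one_lt_two (α := ℕ)))
  obtain ⟨k, hk⟩ := (h3.eventually_gt_atTop C).exists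
  have h4 := h k
  rw [Function.comp_apply, div_pow, lt_div_iff₀ (by positivity)] at hk
  linarith

theorem norm_sq_le_of_pow {H : Type} [NormedAddCommGroup H] [InnerProductSpace ℂ H]
    [CompleteSpace H] (T : H →L[ℂ] H) (ξ : H) {θ C : ℝ} (hθ : 0 < θ)
    (h : ∀ n : ℕ, ‖⟪ξ, ((star T * T) ^ n) ξ⟫_ℂ‖ ≤ C * θ ^ n) : ‖T ξ‖ ^ 2 ≤ θ * ‖ξ‖ ^ 2 := by
  rcases eq_or_ne ξ 0 with h0 | h0
  · simp [h0]
  have hN : 0 < ‖ξ‖ ^ 2 := pow_pos (norm_pos_iff.2 h0) 2
  set S := star T * T with hS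
  have hsa : IsSelfAdjoint S := IsSelfAdjoint.star_mul_self T
  have h1 : ∀ m : ℕ, ‖⟪ξ, (S ^ m) ξ⟫_ℂ‖ ^ 2 ≤ ‖ξ‖ ^ 2 * ‖⟪ξ, (S ^ (2 * m)) ξ⟫_ℂ‖ := by
    intro m
    have e : ⟪ξ, (S ^ (2 * m)) ξ⟫_ℂ = ⟪(S ^ m) ξ, (S ^ m) ξ⟫_ℂ := by
      rw [two_mul, pow_add, ContinuousLinearMap.mul_apply,
        ← ContinuousLinearMap.adjoint_inner_left, ← ContinuousLinearMap.star_eq_adjoint,
        (hsa.pow m).star_eq]
    rw [e, ← inner_self_re_eq_norm, inner_self_eq_norm_sq, ← mul_pow]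
    exact pow_le_pow_left₀ (norm_nonneg _) (norm_inner_le_norm _ _) 2
  have h2 : ∀ k : ℕ, (‖T ξ‖ ^ 2 / ‖ξ‖ ^ 2) ^ 2 ^ k ≤ ‖⟪ξ, (S ^ 2 ^ k) ξ⟫_ℂ‖ / ‖ξ‖ ^ 2 := by
    intro k
    induction k with
    | zero =>
      rw [pow_zero, pow_one, pow_one, hS, ContinuousLinearMap.mul_apply,
        ContinuousLinearMap.star_eq_adjoint, ContinuousLinearMap.adjoint_inner_right,
        ← inner_self_re_eq_norm, inner_self_eq_norm_sq]
    | succ k ih =>
      rw [pow_succ 2 k, pow_mul, mul_comm (2 ^ k) 2]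
      refine (pow_le_pow_left₀ (by positivity) ih 2).trans ?_
      rw [div_pow, div_le_div_iff₀ (by positivity) hN]
      nlinarith [h1 (2 ^ k)]
  rw [← div_le_iff₀ hN]
  refine le_of_pow_two_pow (C := C / ‖ξ‖ ^ 2) hθ fun k => (h2 k).trans ?_
  rw [div_mul_eq_mul_div]
  exact div_le_div_of_nonneg_right (h _) hN.le

variable {G : Type} [Group G] [TopologicalSpace G] [IsTopologicalGroup G] [T2Space G]
  [LocallyCompactSpace G] [SecondCountableTopology G] [MeasurableSpace G] [BorelSpace G]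

/-- Convolution powers. -/
noncomputable def cp (ν : Measure G) : ℕ → Measure G
  | 0 => dirac 1
  | n + 1 => ν ∗ₘ cp ν n

instance cp_prob (ν : Measure G) [IsProbabilityMeasure ν] (n : ℕ) :
    IsProbabilityMeasure (cp ν n) := by
  induction n with
  | zero => exact Measure.dirac.isProbabilityMeasure
  | succ n ih => exact probabilitymeasure_of_probabilitymeasures_mconv _ _

section

variable {H : Type} [NormedAddCommGroup H] [InnerProductSpace ℂ H] [CompleteSpace H]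
  {ρ : G →* (H →L[ℂ] H)}

theorem avm_dirac (hρ : URep ρ) (g : G) : avm ρ (dirac g) = ρ g := by
  ext x
  rw [avm_apply hρ, integral_dirac]

theorem avm_mconv (hρ : URep ρ) (ν ν' : Measure G) [IsFiniteMeasure ν] [IsFiniteMeasure ν'] :
    avm ρ (ν ∗ₘ ν') = avm ρ ν * avm ρ ν' := by
  ext x
  rw [avm_apply hρ, integral_mconv (int_rep hρ _ x), ContinuousLinearMap.mul_apply, avm_apply hρ,
    avm_apply hρ]
  refine integral_congr_ae (Eventually.of_forall fun g => ?_)
  simp only [rmul]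
  exact (ρ g).integral_comp_comm (int_rep hρ ν' x)

theorem avm_cp (hρ : URep ρ) (ν : Measure G) [IsProbabilityMeasure ν] (n : ℕ) :
    avm ρ (cp ν n) = avm ρ ν ^ n := by
  induction n with
  | zero => rw [cp, avm_dirac hρ, map_one, pow_zero]
  | succ n ih => rw [cp, avm_mconv hρ, ih, pow_succ']

theorem avm_inv (hρ : URep ρ) (ν : Measure G) [IsFiniteMeasure ν] :
    avm ρ (ν.map fun g => g⁻¹) = star (avm ρ ν) := by
  ext x
  refine ext_inner_left ℂ fun y => ?_
  rw [← avm_adj hρ, ContinuousLinearMap.star_eq_adjoint, ContinuousLinearMap.adjoint_inner_right]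

theorem dense_av (hρ : URep ρ) (μ : Measure G) [μ.IsHaarMeasure] {K : Set G} (hK : K ∈ 𝓝 (1 : G))
    (x : H) {ε : ℝ} (hε : 0 < ε) : ∃ O : Set G, IsCompact O ∧ O⁻¹ = O ∧ O ⊆ K ∧
      ∃ c : ℂ, ‖c • av μ ρ O x - x‖ ≤ ε := by
  have h1 : ∀ᶠ v in 𝓝 (1 : G), ‖ρ v x - x‖ ≤ ε := by
    have := (tendsto_iff_norm_sub_tendsto_zero.1 (hρ.cont x)).eventually (ge_mem_nhds hε)
    exact this
  obtain ⟨O, hO, hO1, hOs, hOV⟩ := exists_O (inter_mem hK h1)
  have hOV' : O ⊆ K ∩ {v | ‖ρ v x - x‖ ≤ ε} := fun v hv => by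
    have := hOV (mul_mem_mul hv (mem_of_mem_nhds hO1))
    rwa [mul_one] at this
  have h0 : μ O ≠ 0 := (measure_pos_of_mem_nhds μ hO1).ne'
  haveI := ProbabilityTheory.cond_isProbabilityMeasure_of_finite h0 hO.measure_lt_top.ne
  haveI := fin_res μ hO
  refine ⟨O, hO, hOs, fun v hv => (hOV' hv).1, (((μ O)⁻¹.toNNReal : ℝ) : ℂ), ?_⟩
  have h2 := avm_sub_le hρ (ProbabilityTheory.cond μ O) (ξ := x)
    ((ProbabilityTheory.ae_cond_mem hO.measurableSet).mono fun v hv => (hOV' hv).2)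
  have e : ProbabilityTheory.cond μ O = (μ O)⁻¹.toNNReal • μ.restrict O := by
    rw [ProbabilityTheory.cond, ENNReal.smul_def, ENNReal.coe_toNNReal (ENNReal.inv_ne_top.2 h0)]
  rwa [e, avm_smul hρ] at h2

end

variable (μ : Measure G) [μ.IsHaarMeasure]

/-- The left regular representation. -/
noncomputable def lreg : G →* (Lp ℂ 2 μ →L[ℂ] Lp ℂ 2 μ) where
  toFun g := koo (fun x => g⁻¹ * x) (measurePreserving_mul_left μ g⁻¹)
  map_one' := by
    ext1 f
    apply Lp.ext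
    refine (koo_ae _ _ f).trans ?_
    simp
  map_mul' g h := by
    ext1 f
    apply Lp.ext
    refine (koo_ae _ _ f).trans (EventuallyEq.symm ((koo_ae _ _ _).trans ?_))
    have := (measurePreserving_mul_left μ g⁻¹).quasiMeasurePreserving.ae
      (koo_ae (fun x => h⁻¹ * x) (measurePreserving_mul_left μ h⁻¹) f)
    filter_upwards [this] with x hx
    rw [mul_inv_rev, mul_assoc]
    exact hx

theorem urep_lreg : URep (lreg μ) := by
  refine ⟨fun g f => norm_koo _ _ f, fun f => ?_⟩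
  let c : G → C(G, G) := fun g => ⟨fun x => g⁻¹ * x, by fun_prop⟩
  have hc : Continuous c := by
    have h1 : Continuous fun p : G × G => p.1⁻¹ * p.2 := by fun_prop
    exact (ContinuousMap.mk _ h1).curry.continuous
  have h2 : Continuous fun g => lreg μ g f :=
    (continuous_const (y := f)).compMeasurePreservingLp hc
      (fun g => measurePreserving_mul_left μ g⁻¹) (by simp)
  have := h2.tendsto 1
  rwa [rone] at this

/-- Escape estimate. -/
theorem escape (ν : Measure G) [IsProbabilityMeasure ν] {t : ℝ} (ht : ‖avm (lreg μ) ν‖ ≤ t)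
    {O B : Set G} (hO : IsCompact O) (hB : IsCompact B) :
    ν.real B * μ.real O ≤ t * √(μ.real (B * O)) * √(μ.real O) := by
  have hBO := hB.mul hO
  set u : Lp ℂ 2 μ := indicatorConstLp 2 hBO.measurableSet hBO.measure_lt_top.ne (1 : ℂ) with hu
  set v : Lp ℂ 2 μ := indicatorConstLp 2 hO.measurableSet hO.measure_lt_top.ne (1 : ℂ) with hv
  have h1 : ∀ g, (⟪u, lreg μ g v⟫_ℂ).re = μ.real (B * O ∩ (fun x => g⁻¹ * x) ⁻¹' O) := by
    intro g
    have e : lreg μ g v = indicatorConstLp 2 ((measurable_const_mul g⁻¹) hO.measurableSet)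
        (by rw [measure_preimage_mul]; exact hO.measure_lt_top.ne) (1 : ℂ) :=
      Lp.indicatorConstLp_compMeasurePreserving _ _ _ _
    rw [e, hu, L2.inner_indicatorConstLp_one_indicatorConstLp_one _ _ _ _]
    simp
  have h2 := re_avm (urep_lreg μ) ν 1 u v
  have h3 := int_re (urep_lreg μ) ν 1 u v
  simp only [ContinuousLinearMap.one_apply, h1] at h2 h3
  have h4 : ν.real B * μ.real O ≤ (⟪u, avm (lreg μ) ν v⟫_ℂ).re := by
    rw [h2, ← smul_eq_mul, ← integral_indicator_const _ hB.measurableSet]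
    refine integral_mono ((integrable_const _).indicator hB.measurableSet) h3 fun g => ?_
    by_cases hg : g ∈ B
    · rw [indicator_of_mem hg, inter_eq_right.2, measureReal_def, measureReal_def,
        measure_preimage_mul]
      intro x hx
      exact ⟨g, hg, g⁻¹ * x, hx, mul_inv_cancel_left _ _⟩
    · rw [indicator_of_notMem hg]
      exact measureReal_nonneg
  have hn : ∀ {A : Set G} (hA : IsCompact A),
      ‖indicatorConstLp 2 hA.measurableSet (hA.measure_lt_top (μ := μ)).ne (1 : ℂ)‖ =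
        √(μ.real A) := by
    intro A hA
    rw [norm_indicatorConstLp (by simp) (by simp), norm_one, one_mul, Real.sqrt_eq_rpow]
    simp
  refine h4.trans ((Complex.re_le_norm _).trans ((norm_inner_le_norm _ _).trans ?_))
  have h5 := (avm (lreg μ) ν).le_of_opNorm_le ht v
  rw [hu, hn hBO, mul_comm t, mul_assoc]
  rw [hv, hn hO] at h5
  exact mul_le_mul_of_nonneg_left h5 (Real.sqrt_nonneg _)

theorem growth {S : Set G} (hS : IsCompact S) (hS1 : S ∈ 𝓝 (1 : G)) :
    ∃ D : ℝ, 0 < D ∧ ∀ R : ℕ, μ.real (S ^ R * S) ≤ Real.exp (D * R) * μ.real S := by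
  classical
  obtain ⟨F, hF⟩ := cover_left hS1 (hS.mul hS)
  have h1 : ∀ R : ℕ, ∃ W : Finset G, W.card ≤ F.card ^ R ∧
      S ^ R * S ⊆ ⋃ k ∈ W, (fun g => k * g) '' S := by
    intro R
    induction R with
    | zero => exact ⟨{1}, by simp, by simp⟩
    | succ R ih =>
      obtain ⟨W, hW, hWS⟩ := ih
      refine ⟨W * F, Finset.card_mul_le.trans (by rw [pow_succ]; gcongr), ?_⟩
      rw [pow_succ]
      rintro _ ⟨a, ha, b, hb, rfl⟩
      obtain ⟨w, hw, c, hc, rfl⟩ := mem_iUnion₂.1 (hWS ha)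
      obtain ⟨k, hk, d, hd, e⟩ := mem_iUnion₂.1 (hF (mul_mem_mul hc hb))
      refine mem_iUnion₂.2 ⟨w * k, Finset.mul_mem_mul hw hk, d, hd, ?_⟩
      simp only at e ⊢
      rw [mul_assoc, e, mul_assoc]
  refine ⟨F.card + 1, by positivity, fun R => ?_⟩
  obtain ⟨W, hW, hWS⟩ := h1 R
  have h2 : μ (S ^ R * S) ≤ W.card * μ S := by
    refine (measure_mono hWS).trans ((measure_biUnion_finset_le _ _).trans (le_of_eq ?_))
    simp only [image_mul_left, measure_preimage_mul, Finset.sum_const, nsmul_eq_mul]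
  have h3 : μ.real (S ^ R * S) ≤ W.card * μ.real S := by
    have := ENNReal.toReal_mono (ENNReal.mul_ne_top (by simp) hS.measure_lt_top.ne) h2
    rwa [ENNReal.toReal_mul, ENNReal.toReal_natCast] at this
  refine h3.trans (mul_le_mul_of_nonneg_right ?_ measureReal_nonneg)
  rw [mul_comm, Real.exp_nat_mul]
  calc (W.card : ℝ) ≤ (F.card : ℝ) ^ R := by exact_mod_cast hW
    _ ≤ _ := pow_le_pow_left₀ (by positivity) (by linarith [Real.add_one_le_exp (F.card + 1 : ℝ)]) R

theorem isCompact_pow {S : Set G} (hS : IsCompact S) (n : ℕ) : IsCompact (S ^ n) := by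
  induction n with
  | zero => rw [pow_zero]; exact isCompact_singleton
  | succ n ih => rw [pow_succ]; exact ih.mul hS

/-- A word length. -/
theorem Geo.exists_len (hG : Geo G) : ∃ (S : Set G) (ℓ : G → ℝ), IsCompact S ∧ S ∈ 𝓝 (1 : G) ∧
    Sub ℓ ∧ ∀ (R : ℕ) (g : G), g ∉ S ^ R → (R : ℝ) ≤ ℓ g := by
  classical
  obtain ⟨V, -, K, -, h⟩ := hG
  obtain ⟨L, hL, h⟩ := h ∅ isCompact_empty
  obtain ⟨O, hO, hO1⟩ := exists_compact_mem_nhds (1 : G)
  have hS1 : L ∪ O ∈ 𝓝 (1 : G) := mem_of_superset hO1 subset_union_right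
  have h1 : ∀ g, ∃ n : ℕ, g ∈ (L ∪ O) ^ n := by
    intro g
    obtain ⟨n, p, hp0, ⟨k, hk, k', hk', rfl⟩, hp⟩ := h g
    have h2 : ∀ i ≤ n, p i ∈ (L ∪ O) ^ i := by
      intro i
      induction i with
      | zero => intro _; rw [hp0, pow_zero]; rfl
      | succ i ih =>
        intro hi
        rw [pow_succ, ← mul_inv_cancel_left (p i) (p (i + 1))]
        exact mul_mem_mul (ih (Nat.le_of_succ_le hi)) (Or.inl (hp i hi).1)
    refine ⟨n + 1 + 1, ?_⟩
    rw [pow_succ, pow_succ']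
    exact mul_mem_mul (mul_mem_mul (Or.inl hk) (h2 n le_rfl)) (Or.inl hk')
  have hmono : ∀ {a b : ℕ}, a ≤ b → (L ∪ O) ^ a ⊆ (L ∪ O) ^ b := fun hab =>
    pow_subset_pow_right (mem_of_mem_nhds hS1) hab
  refine ⟨L ∪ O, fun g => (Nat.find (h1 g) : ℝ), hL.union hO, hS1, ⟨fun g g' => ?_, fun K hK => ?_⟩,
    fun R g hg => ?_⟩
  · have : Nat.find (h1 (g * g')) ≤ Nat.find (h1 g) + Nat.find (h1 g') := by
      refine Nat.find_min' _ ?_
      rw [pow_add]
      exact mul_mem_mul (Nat.find_spec (h1 g)) (Nat.find_spec (h1 g'))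
    beta_reduce
    exact_mod_cast this
  · obtain ⟨F, hF⟩ := cover_left hS1 hK
    refine ⟨(F.sup fun k => Nat.find (h1 k) + 1 : ℕ), fun g hg => ?_⟩
    obtain ⟨k, hk, s, hs, rfl⟩ := mem_iUnion₂.1 (hF hg)
    have h2 : Nat.find (h1 (k * s)) ≤ Nat.find (h1 k) + 1 := by
      refine Nat.find_min' _ ?_
      rw [pow_succ]
      exact mul_mem_mul (Nat.find_spec (h1 k)) hs
    beta_reduce
    exact_mod_cast h2.trans (Finset.le_sup (f := fun k => Nat.find (h1 k) + 1) hk)
  · by_contra h2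
    rw [not_le] at h2
    beta_reduce at h2
    have h3 : Nat.find (h1 g) < R := by exact_mod_cast h2
    exact hg (hmono h3.le (Nat.find_spec (h1 g)))

/-- **The gap.** -/
theorem gap_pow [μ.IsMulRightInvariant] (hG : Geo G) {I : Type} {S : I → Set G} (hS : HMF S) :
    ∃ α : ℝ, 0 < α ∧
    ∀ (𝓗 : Type) [NormedAddCommGroup 𝓗] [InnerProductSpace ℂ 𝓗] [CompleteSpace 𝓗]
      (σ : G →* (𝓗 →L[ℂ] 𝓗)), URep σ → (∀ i, NoFix σ (S i)) →
      ∀ (ν : Measure G) [IsProbabilityMeasure ν] (t : ℝ), 0 < t → ‖avm (lreg μ) ν‖ ≤ t →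
        ‖avm σ ν‖ ≤ t ^ α := by
  obtain ⟨K, ℓ, hK, hK1, hℓ, hKℓ⟩ := hG.exists_len
  obtain ⟨C₀, c, hC, hc, hdec⟩ := dec_avm μ hG hS hK hℓ
  obtain ⟨D, hD, hgr⟩ := growth μ hK hK1
  have hm : 0 < μ.real K :=
    ENNReal.toReal_pos (measure_pos_of_mem_nhds μ hK1).ne' hK.measure_lt_top.ne
  set α := c / (c + D / 2) with hα
  have hα0 : 0 < α := by positivity
  refine ⟨α, hα0, ?_⟩
  intro 𝓗 _ _ _ σ hσ hN ν _ t ht hνt
  rcases le_or_gt 1 t with ht1 | ht1
  · refine le_trans ?_ (Real.one_le_rpow ht1 hα0.le)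
    exact ContinuousLinearMap.opNorm_le_bound _ zero_le_one fun x => by
      simpa using norm_avm hσ ν x
  haveI : IsProbabilityMeasure (ν.map fun g => g⁻¹) :=
    isProbabilityMeasure_map measurable_inv.aemeasurable
  set m := (ν.map fun g => g⁻¹) ∗ₘ ν with hmd
  set u := -Real.log t with hu
  have hu0 : 0 < u := neg_pos.2 (Real.log_neg ht ht1)
  have htu : t = Real.exp (-u) := by rw [hu, neg_neg, Real.exp_log ht]
  have hθ : t ^ α = Real.exp (-(u * α)) := by
    rw [Real.rpow_def_of_pos ht, hu]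
    congr 1
    ring
  -- the escape estimate
  have hesc : ∀ n : ℕ, ∃ R : ℕ, (cp m n).real (K ^ R) + Real.exp (-(c * R)) ≤
      (1 + Real.exp c) * ((t ^ α) ^ 2) ^ n := by
    intro n
    set x := 2 * n * u / (c + D / 2) with hx
    have hx0 : 0 ≤ x := by positivity
    refine ⟨⌊x⌋₊, ?_⟩
    have e1 : ((t ^ α) ^ 2) ^ n = Real.exp (-(c * x)) := by
      rw [hθ, ← Real.exp_nat_mul, ← Real.exp_nat_mul, hx, hα]
      congr 1
      push_cast
      ring
    have h1 : ‖avm (lreg μ) (cp m n)‖ ≤ (t ^ 2) ^ n := by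
      rw [avm_cp (urep_lreg μ), hmd, avm_mconv (urep_lreg μ), avm_inv (urep_lreg μ)]
      rcases Nat.eq_zero_or_pos n with h0 | h0
      · rw [h0, pow_zero, pow_zero]
        exact ContinuousLinearMap.norm_id_le
      refine (norm_pow_le' _ h0).trans (pow_le_pow_left₀ (norm_nonneg _) ?_ n)
      rw [CStarRing.norm_star_mul_self, pow_two]
      exact mul_le_mul hνt hνt (norm_nonneg _) ht.le
    have h2 := escape μ (cp m n) h1 hK (isCompact_pow hK ⌊x⌋₊)
    have h3 : √(μ.real (K ^ ⌊x⌋₊ * K)) ≤ Real.exp (D / 2 * x) * √(μ.real K) := by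
      rw [Real.sqrt_le_iff]
      refine ⟨by positivity, (hgr _).trans ?_⟩
      rw [mul_pow, Real.sq_sqrt hm.le, ← Real.exp_nat_mul]
      refine mul_le_mul_of_nonneg_right (Real.exp_le_exp.2 ?_) hm.le
      have := Nat.floor_le hx0
      push_cast
      nlinarith
    have h4 : (cp m n).real (K ^ ⌊x⌋₊) ≤ Real.exp (-(c * x)) := by
      refine le_of_mul_le_mul_right (h2.trans ?_) hm
      calc (t ^ 2) ^ n * √(μ.real (K ^ ⌊x⌋₊ * K)) * √(μ.real K)
          ≤ (t ^ 2) ^ n * (Real.exp (D / 2 * x) * √(μ.real K)) * √(μ.real K) := by gcongr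
        _ = (t ^ 2) ^ n * Real.exp (D / 2 * x) * (√(μ.real K) * √(μ.real K)) := by ring
        _ = _ := by
          rw [Real.mul_self_sqrt hm.le, htu, ← Real.exp_nat_mul, ← Real.exp_nat_mul,
            ← Real.exp_add]
          congr 2
          rw [hx]
          push_cast
          field_simp
          ring
    have h5 : Real.exp (-(c * ⌊x⌋₊)) ≤ Real.exp c * Real.exp (-(c * x)) := by
      rw [← Real.exp_add]
      refine Real.exp_le_exp.2 ?_
      have := (Nat.lt_floor_add_one x).le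
      nlinarith
    rw [e1]
    linarith
  -- smooth vectors
  have hsm : ∀ (O : Set G), IsCompact O → O⁻¹ = O → O ⊆ K → ∀ ζ,
      ‖avm σ ν (av μ σ O ζ)‖ ≤ t ^ α * ‖av μ σ O ζ‖ := by
    intro O hO hOs hOK ζ
    have hle : μ.restrict O ≤ (1 : ℝ≥0) • μ.restrict K := by
      rw [one_smul]
      exact restrict_mono hOK le_rfl
    obtain ⟨C₁, hC₁, h1⟩ : ∃ C₁ : ℝ, 0 ≤ C₁ ∧ ∀ g,
        ‖⟪av μ σ O ζ, σ g (av μ σ O ζ)⟫_ℂ‖ ≤ C₁ * Real.exp (-(c * ℓ g)) := by
      refine ⟨‖ζ‖ * (C₀ * √((μ.restrict O).real univ * (μ.restrict O).real univ * (1 : ℝ≥0) *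
        (1 : ℝ≥0)) * ‖ζ‖), by positivity, fun g => ?_⟩
      rw [av_adj μ hσ hO hOs]
      refine (norm_inner_le_norm _ _).trans ?_
      have := hdec 𝓗 σ hσ hN _ _ _ _ hle hle g ζ
      refine (mul_le_mul_of_nonneg_left this (norm_nonneg _)).trans (le_of_eq ?_)
      ring
    set ξ := av μ σ O ζ with hξ
    refine (sq_le_sq₀ (norm_nonneg _) (by positivity)).1 ?_
    rw [mul_pow]
    refine norm_sq_le_of_pow _ ξ (C := (C₁ + ‖ξ‖ ^ 2) * (1 + Real.exp c)) (by positivity)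
      fun n => ?_
    obtain ⟨R, hR⟩ := hesc n
    have h2 := inner_avm hσ (cp m n) 1 ξ ξ
    simp only [ContinuousLinearMap.one_apply] at h2
    rw [← avm_inv hσ, ← avm_mconv hσ, ← hmd, ← avm_cp hσ, h2, mul_assoc]
    refine le_trans ?_ (mul_le_mul_of_nonneg_left hR (by positivity))
    have hKR := (isCompact_pow hK R).measurableSet
    have h3 : ∀ g, ‖⟪ξ, σ g ξ⟫_ℂ‖ ≤ (C₁ + ‖ξ‖ ^ 2) *
        ((K ^ R).indicator (fun _ => (1 : ℝ)) g + Real.exp (-(c * R))) := by
      intro g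
      by_cases hg : g ∈ K ^ R
      · rw [indicator_of_mem hg]
        refine (norm_inner_le_norm _ _).trans ?_
        rw [hσ.iso]
        nlinarith [Real.exp_pos (-(c * R)), sq_nonneg ‖ξ‖, mul_nonneg hC₁ (Real.exp_pos (-(c * R))).le,
          mul_nonneg (sq_nonneg ‖ξ‖) (Real.exp_pos (-(c * R))).le]
      · rw [indicator_of_notMem hg, zero_add]
        refine (h1 g).trans (mul_le_mul (le_add_of_nonneg_right (sq_nonneg _))
          (Real.exp_le_exp.2 ?_) (Real.exp_pos _).le (by positivity))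
        have := hKℓ R g hg
        nlinarith
    refine (norm_integral_le_of_norm_le ((((integrable_const _).indicator hKR).add
      (integrable_const _)).const_mul _) (Eventually.of_forall h3)).trans (le_of_eq ?_)
    rw [integral_const_mul, integral_add ((integrable_const _).indicator hKR) (integrable_const _),
      integral_indicator_const _ hKR]
    simp
  refine ContinuousLinearMap.opNorm_le_bound _ (by positivity) fun x => ?_
  refine le_of_forall_pos_le_add fun ε hε => ?_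
  obtain ⟨O, hO, hOs, hOK, a, ha⟩ := dense_av hσ μ hK1 x (ε := ε / (1 + t ^ α)) (by positivity)
  have h1 := mul_le_mul_of_nonneg_left (hsm O hO hOs hOK x) (norm_nonneg a)
  rw [← norm_smul, ← map_smul, mul_left_comm, ← norm_smul] at h1
  set y := a • av μ σ O x with hy
  have h2 : ‖avm σ ν (y - x)‖ ≤ ‖y - x‖ := by simpa using norm_avm hσ ν (y - x)
  have h3 : ‖avm σ ν x‖ ≤ ‖avm σ ν y‖ + ‖avm σ ν (y - x)‖ := by
    rw [map_sub]
    simpa using norm_sub_le (avm σ ν y) (avm σ ν y - avm σ ν x)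
  have h4 : ‖y‖ ≤ ‖x‖ + ‖y - x‖ := by simpa using norm_add_le x (y - x)
  rw [le_div_iff₀ (by positivity)] at ha
  have h5 : 0 < t ^ α := by positivity
  nlinarith

end Vale.Agent.P092LG
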