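import Vale.Agent.P092LG.Av

/-!
P092 (helper44), block B1: averages over compact sets, covering, uniform mixing in norm.
-/

set_option linter.all false

namespace Vale.Agent.P092LG

open Filter Topology MeasureTheory MeasureTheory.Measure Set
open scoped InnerProductSpace ComplexConjugate Pointwise ENNReal NNReal
open Vale.Agent.P092.H933 (Len URep)
open Vale.Agent.P092.H15 (Ctr HMG)

variable {G : Type} [Group G] [TopologicalSpace G] [IsTopologicalGroup G] [T2Space G]
  [LocallyCompactSpace G] [SecondCountableTopology G] [MeasurableSpace G] [BorelSpace G]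
  (μ : Measure G) [μ.IsHaarMeasure]

theorem invInv [IsMulRightInvariant μ] : IsInvInvariant μ := by
  constructor
  obtain ⟨c, hcc⟩ : ∃ c : ℝ≥0∞, c = haarScalarFactor μ.inv μ := ⟨_, rfl⟩
  have hfin : IsFiniteMeasureOnCompacts μ.inv := inferInstance
  have hc : μ.inv = c • μ := by
    rw [hcc]; exact isMulLeftInvariant_eq_smul μ.inv μ
  have this : map Inv.inv (map Inv.inv μ) = c ^ 2 • μ := by
    rw [← inv_def μ, hc, Measure.map_smul, ← inv_def μ, hc, smul_smul, pow_two]
  have μeq : μ = c ^ 2 • μ := by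
    rw [map_map continuous_inv.measurable continuous_inv.measurable] at this
    simpa only [inv_involutive, Function.Involutive.comp_self, Measure.map_id] using this
  obtain ⟨K⟩ : Nonempty (TopologicalSpace.PositiveCompacts G) := inferInstance
  have h1 : c ^ 2 * μ K = 1 ^ 2 * μ K := by
    conv_rhs => rw [μeq]
    simp
  have h2 : c ^ 2 = 1 ^ 2 :=
    (ENNReal.mul_left_inj (measure_pos_of_nonempty_interior _ K.interior_nonempty).ne'
          K.isCompact.measure_lt_top.ne).1 h1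
  have h3 : c = 1 := (ENNReal.pow_right_strictMono two_ne_zero).injective h2
  rw [hc, h3, one_smul]

theorem fin_res {K : Set G} (hK : IsCompact K) : IsFiniteMeasure (μ.restrict K) :=
  isFiniteMeasure_restrict.2 hK.measure_lt_top.ne

theorem map_res {f : G ≃ᵐ G} (hf : MeasurePreserving f μ μ) (O : Set G) :
    (μ.restrict O).map f = μ.restrict (f '' O) := by
  have := f.restrict_map μ (f '' O)
  rw [hf.map_eq, f.injective.preimage_image] at this
  exact this.symm

theorem map_res_left (k : G) (O : Set G) :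
    (μ.restrict O).map (fun g => k * g) = μ.restrict ((fun g => k * g) '' O) :=
  map_res μ (f := MeasurableEquiv.mulLeft k) (measurePreserving_mul_left μ k) O

theorem map_res_right [IsMulRightInvariant μ] (k : G) (O : Set G) :
    (μ.restrict O).map (fun g => g * k) = μ.restrict ((fun g => g * k) '' O) :=
  map_res μ (f := MeasurableEquiv.mulRight k) (measurePreserving_mul_right μ k) O

theorem map_res_inv [IsMulRightInvariant μ] {O : Set G} (hO : O⁻¹ = O) :
    (μ.restrict O).map (fun g => g⁻¹) = μ.restrict O := by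
  haveI := invInv μ
  have := map_res μ (f := MeasurableEquiv.inv G) (measurePreserving_inv μ) O
  rw [show (MeasurableEquiv.inv G) '' O = O from (Set.image_inv_eq_inv (s := O)).trans hO] at this
  exact this

theorem res_le_sum {ι : Type} (F : Finset ι) (s : ι → Set G) {B : Set G} (hB : B ⊆ ⋃ i ∈ F, s i) :
    μ.restrict B ≤ ∑ i ∈ F, μ.restrict (s i) := by
  rw [Measure.le_iff]
  intro A hA
  rw [Measure.finset_sum_apply, restrict_apply hA]
  simp only [restrict_apply hA]
  refine (measure_mono ?_).trans (measure_biUnion_finset_le F fun i => A ∩ s i)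
  rintro x ⟨h1, h2⟩
  obtain ⟨i, hi, hx⟩ := mem_iUnion₂.1 (hB h2)
  exact mem_iUnion₂.2 ⟨i, hi, h1, hx⟩

theorem cover_left {O B : Set G} (hO : O ∈ 𝓝 (1 : G)) (hB : IsCompact B) :
    ∃ F : Finset G, B ⊆ ⋃ k ∈ F, (fun g => k * g) '' O := by
  obtain ⟨F, -, hF⟩ := hB.elim_nhds_subcover (fun k => (fun g => k * g) '' O) fun k _ => by
    have := (Homeomorph.mulLeft k).isOpenMap.image_mem_nhds hO
    simpa using this
  exact ⟨F, hF⟩

theorem cover_right {O B : Set G} (hO : O ∈ 𝓝 (1 : G)) (hB : IsCompact B) :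
    ∃ F : Finset G, B ⊆ ⋃ k ∈ F, (fun g => g * k) '' O := by
  obtain ⟨F, -, hF⟩ := hB.elim_nhds_subcover (fun k => (fun g => g * k) '' O) fun k _ => by
    have := (Homeomorph.mulRight k).isOpenMap.image_mem_nhds hO
    simpa using this
  exact ⟨F, hF⟩

/-- The average over a set. -/
noncomputable def av {H : Type} [NormedAddCommGroup H] [InnerProductSpace ℂ H] [CompleteSpace H]
    (ρ : G →* (H →L[ℂ] H)) (O : Set G) : H →L[ℂ] H := avm ρ (μ.restrict O)

variable {H : Type} [NormedAddCommGroup H] [InnerProductSpace ℂ H] [CompleteSpace H]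
  {ρ : G →* (H →L[ℂ] H)} {C : Set H} {O B : Set G}

theorem rep_av (hρ : URep ρ) (hO : IsCompact O) (k : G) :
    ρ k * av μ ρ O = av μ ρ ((fun g => k * g) '' O) := by
  haveI := fin_res μ hO
  rw [av, rep_avm hρ, map_res_left, av]

theorem av_rep [IsMulRightInvariant μ] (hρ : URep ρ) (hO : IsCompact O) (k : G) :
    av μ ρ O * ρ k = av μ ρ ((fun g => g * k) '' O) := by
  haveI := fin_res μ hO
  rw [av, avm_rep hρ, map_res_right, av]

theorem av_adj [IsMulRightInvariant μ] (hρ : URep ρ) (hO : IsCompact O) (hs : O⁻¹ = O) (x y : H) :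
    ⟪av μ ρ O y, x⟫_ℂ = ⟪y, av μ ρ O x⟫_ℂ := by
  haveI := fin_res μ hO
  rw [av, avm_adj hρ, map_res_inv μ hs]

theorem norm_av (hρ : URep ρ) (hO : IsCompact O) (x : H) : ‖av μ ρ O x‖ ≤ μ.real O * ‖x‖ := by
  haveI := fin_res μ hO
  have := norm_avm hρ (μ.restrict O) x
  rwa [measureReal_restrict_apply_univ] at this

theorem ICone.pr_av (h : ICone ρ C) (hO : IsCompact O) : Pr C (av μ ρ O) := by
  haveI := fin_res μ hO
  exact h.pr_avm _

theorem ICone.le_av (h : ICone ρ C) (hO : IsCompact O) (hB : IsCompact B) (hOB : O ⊆ B) :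
    Le C (av μ ρ O) (av μ ρ B) := by
  haveI := fin_res μ hO
  haveI := fin_res μ hB
  exact h.le_avm (restrict_mono hOB le_rfl)

theorem ICone.le_left (h : ICone ρ C) (hO : IsCompact O) (hB : IsCompact B) {F : Finset G}
    (hF : B ⊆ ⋃ k ∈ F, (fun g => k * g) '' O) : Le C (av μ ρ B) (∑ k ∈ F, ρ k * av μ ρ O) := by
  haveI := fin_res μ hB
  haveI := fun k : G => fin_res μ (hO.image (continuous_const_mul k))
  simp only [rep_av μ h.rep hO]
  simp only [av]
  rw [← avm_sum h.rep]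
  exact h.le_avm (res_le_sum μ F _ hF)

theorem ICone.le_right [IsMulRightInvariant μ] (h : ICone ρ C) (hO : IsCompact O) (hB : IsCompact B)
    {F : Finset G} (hF : B ⊆ ⋃ k ∈ F, (fun g => g * k) '' O) :
    Le C (av μ ρ B) (∑ k ∈ F, av μ ρ O * ρ k) := by
  haveI := fin_res μ hB
  haveI := fun k : G => fin_res μ (hO.image (continuous_mul_const k))
  simp only [av_rep μ h.rep hO]
  simp only [av]
  rw [← avm_sum h.rep]
  exact h.le_avm (res_le_sum μ F _ hF)

theorem ICone.bd_left (h : ICone ρ C) (hO : IsCompact O) (hB : IsCompact B) {F : Finset G}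
    (hF : B ⊆ ⋃ k ∈ F, (fun g => k * g) '' O) {T : H →L[ℂ] H} (hT : Pr C T) {t : ℝ}
    (hb : Bd C (av μ ρ O * T) t) : Bd C (av μ ρ B * T) (F.card * t) := by
  refine Bd.of_le h.cone ((h.pr_av μ hB).mul hT) ((h.le_left μ hO hB hF).mul_right hT) ?_
  rw [Finset.sum_mul]
  exact Bd.sum F fun k _ => by
    rw [mul_assoc]
    exact h.bd_rep_mul hb k

theorem ICone.bd_right [IsMulRightInvariant μ] (h : ICone ρ C) (hO : IsCompact O) (hB : IsCompact B)
    {F : Finset G} (hF : B ⊆ ⋃ k ∈ F, (fun g => g * k) '' O) {T : H →L[ℂ] H} (hT : Pr C T) {t : ℝ}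
    (hb : Bd C (T * av μ ρ O) t) : Bd C (T * av μ ρ B) (F.card * t) := by
  refine Bd.of_le h.cone (hT.mul (h.pr_av μ hB)) ((h.le_right μ hO hB hF).mul_left h.cone hT) ?_
  rw [Finset.mul_sum]
  exact Bd.sum F fun k _ => by
    rw [← mul_assoc]
    exact h.bd_mul_rep hb k

theorem norm_setInt_sub {F : G → H} {b : ℝ} (hF : Continuous F) (hb : ∀ g, ‖F g‖ ≤ b) {P Q : Set G}
    (hP : IsCompact P) (hQ : IsCompact Q) :
    ‖∫ g in P, F g ∂μ - ∫ g in Q, F g ∂μ‖ ≤ (μ.real (P \ Q) + μ.real (Q \ P)) * b := by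
  have h1 := integral_inter_add_diff (μ := μ) hQ.measurableSet (hF.continuousOn.integrableOn_compact hP)
  have h2 := integral_inter_add_diff (μ := μ) hP.measurableSet (hF.continuousOn.integrableOn_compact hQ)
  rw [← h1, ← h2, inter_comm Q P, add_sub_add_left_eq_sub, add_mul]
  refine (norm_sub_le _ _).trans (add_le_add ?_ ?_)
  · rw [mul_comm]
    exact norm_setIntegral_le_of_norm_le_const
      ((measure_mono diff_subset).trans_lt hP.measure_lt_top) fun g _ => hb g
  · rw [mul_comm]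
    exact norm_setIntegral_le_of_norm_le_const
      ((measure_mono diff_subset).trans_lt hQ.measure_lt_top) fun g _ => hb g

theorem eqc_av (hO : IsCompact O) {ε : ℝ} (hε : 0 < ε) : ∀ᶠ g in 𝓝 (1 : G),
    ∀ (H : Type) [NormedAddCommGroup H] [InnerProductSpace ℂ H] [CompleteSpace H]
      (ρ : G →* (H →L[ℂ] H)), URep ρ → ∀ x, ‖ρ g (av μ ρ O x) - av μ ρ O x‖ ≤ ε * ‖x‖ := by
  have h1 := eventually_nhds_one_measure_smul_sdiff_lt (μ := μ) hO hO.isClosed
    (ε := ENNReal.ofReal (ε / 2)) (by simpa using hε)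
  have h2 : Tendsto (fun g : G => g⁻¹) (𝓝 1) (𝓝 1) := by simpa using continuous_inv.tendsto (1 : G)
  filter_upwards [h1, h2.eventually h1] with g hg hg' H _ _ _ ρ hρ x
  have hgO : IsCompact ((fun x => g * x) '' O) := hO.image (continuous_const_mul g)
  haveI := fin_res μ hO
  haveI := fin_res μ hgO
  rw [← ContinuousLinearMap.mul_apply, rep_av μ hρ hO, av, av, avm_apply hρ, avm_apply hρ]
  refine (norm_setInt_sub μ (cont_rep hρ x) (fun g => (hρ.iso g x).le) hgO hO).trans ?_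
  refine mul_le_mul_of_nonneg_right ?_ (norm_nonneg _)
  have e1 : μ.real ((fun x => g * x) '' O \ O) ≤ ε / 2 :=
    ENNReal.toReal_le_of_le_ofReal (by positivity) hg.le
  have e2 : μ.real (O \ (fun x => g * x) '' O) ≤ ε / 2 := by
    refine ENNReal.toReal_le_of_le_ofReal (by positivity) (le_trans ?_ hg'.le)
    rw [← measure_preimage_mul μ g]
    refine measure_mono fun y hy => ⟨⟨g * y, hy.1, by simp⟩, fun h => hy.2 ⟨y, h, rfl⟩⟩
  linarith

/-- A bundled Hilbert space with a homomorphism. -/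
structure Rp (G : Type) [Group G] where
  H : Type
  [i1 : NormedAddCommGroup H]
  [i2 : InnerProductSpace ℂ H]
  [i3 : CompleteSpace H]
  ρ : G →* (H →L[ℂ] H)

attribute [instance] Rp.i1 Rp.i2 Rp.i3

/-- **Uniform mixing in norm.** -/
theorem umix [IsMulRightInvariant μ] {I : Type} {S : I → Set G} (hS : HMF S) (hO : IsCompact O)
    (hs : O⁻¹ = O) {δ : ℝ} (hδ : 0 < δ) : ∃ L : Set G, IsCompact L ∧
    ∀ (H : Type) [NormedAddCommGroup H] [InnerProductSpace ℂ H] [CompleteSpace H]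
      (ρ : G →* (H →L[ℂ] H)), URep ρ → (∀ i, NoFix ρ (S i)) → ∀ a ∉ L, ∀ x,
        ‖(av μ ρ O * ρ a * av μ ρ O) x‖ ≤ δ * ‖x‖ := by
  by_contra hcon
  let Bad : Set G := {a | ∃ R : Rp G, URep R.ρ ∧ (∀ i, NoFix R.ρ (S i)) ∧ ∃ x y : R.H,
    ‖x‖ ≤ 1 ∧ ‖y‖ ≤ 1 ∧ δ ≤ ‖⟪av μ R.ρ O y, R.ρ a (av μ R.ρ O x)⟫_ℂ‖}
  have hB : ∀ L : Set G, IsCompact L → ∃ a ∈ Bad, a ∉ L := by
    intro L hL
    by_contra h1
    refine hcon ⟨L, hL, fun H _ _ _ ρ hρ hN a ha x => ?_⟩
    by_contra h2
    rw [not_le] at h2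
    set z := (av μ ρ O * ρ a * av μ ρ O) x with hz
    have hx0 : 0 < ‖x‖ := by
      rcases eq_or_ne x 0 with h | h
      · rw [hz, h] at h2
        simp at h2
      · exact norm_pos_iff.2 h
    have hz0 : 0 < ‖z‖ := lt_of_le_of_lt (by positivity) h2
    refine h1 ⟨a, ⟨⟨H, ρ⟩, hρ, hN, ((‖x‖⁻¹ : ℝ) : ℂ) • x, ((‖z‖⁻¹ : ℝ) : ℂ) • z, ?_, ?_, ?_⟩, ha⟩
    · rw [norm_smul, Complex.norm_real, Real.norm_of_nonneg (by positivity),
        inv_mul_cancel₀ hx0.ne']
    · rw [norm_smul, Complex.norm_real, Real.norm_of_nonneg (by positivity),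
        inv_mul_cancel₀ hz0.ne']
    · rw [av_adj μ hρ hO hs, map_smul, map_smul, map_smul, inner_smul_left, inner_smul_right]
      change δ ≤ ‖_ * (_ * ⟪z, z⟫_ℂ)‖
      rw [norm_mul, norm_mul, RCLike.norm_conj, Complex.norm_real, Complex.norm_real,
        Real.norm_of_nonneg (by positivity), Real.norm_of_nonneg (by positivity),
        ← inner_self_re_eq_norm, inner_self_eq_norm_sq]
      have e : ‖z‖⁻¹ * (‖x‖⁻¹ * ‖z‖ ^ 2) = ‖z‖ / ‖x‖ := by field_simp
      rw [e, le_div_iff₀ hx0]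
      exact h2.le
  haveI : (comap (Subtype.val : Bad → G) (cocompact G)).NeBot := by
    refine comap_neBot fun t ht => ?_
    obtain ⟨K, hK, hKt⟩ := mem_cocompact.1 ht
    obtain ⟨a, ha, haK⟩ := hB K hK
    exact ⟨⟨a, ha⟩, hKt haK⟩
  let W := Ultrafilter.of (comap (Subtype.val : Bad → G) (cocompact G))
  have hW : ((W.map Subtype.val : Ultrafilter G) : Filter G) ≤ cocompact G :=
    tendsto_iff_comap.2 (Ultrafilter.of_le _)
  obtain ⟨i, hi⟩ := hS.2 _ hW
  obtain ⟨Q, hQS, hQ, κ, hκ, hK⟩ := (hS.1 i).1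
  choose R hR hN x y hx hy hxy using fun a : Bad => a.2
  have hb : ∀ x : ∀ a, (R a).H, (∀ a, ‖x a‖ ≤ 1) →
      (fun a => av μ (R a).ρ O (x a)) ∈ Bdd fun a => (R a).H := fun x hx =>
    ⟨μ.real O, fun a => (norm_av μ (hR a) hO _).trans
      (mul_le_of_le_one_right measureReal_nonneg (hx a))⟩
  have he : ∀ (x : ∀ a, (R a).H) (hx : ∀ a, ‖x a‖ ≤ 1),
      (⟨_, hb x hx⟩ : Bdd fun a => (R a).H) ∈ EqS fun a => (R a).ρ := by
    intro x hx ε hε
    filter_upwards [eqc_av μ hO hε] with g hg a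
    exact (hg _ _ (hR a) _).trans (mul_le_of_le_one_right hε.le (hx a))
  have h := ult W (ρ := fun a => (R a).ρ) (fun a => (hR a).iso) Subtype.val hQ hκ
    (fun a => hK _ _ (hR a) (hN a i)) (fun f hf hc g hg => hi f hf hc g (hQS hg))
    (he x hx) (he y hy)
  have h2 := (tendsto_zero_iff_norm_tendsto_zero.1 h).eventually (gt_mem_nhds hδ)
  obtain ⟨a, ha⟩ := h2.exists
  exact absurd (hxy a) (not_le.2 ha)

end Vale.Agent.P092LG
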