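import Vale.Agent.P092LG.Defs
import Mathlib.Analysis.InnerProductSpace.Reproducing
import Mathlib.Analysis.Normed.Operator.Extend

/-!
P092 (helper44), block B1: the Hilbert space and the representation of an invariant positive kernel.
-/

set_option linter.all false

namespace Vale.Agent.P092LG

open Filter Topology
open scoped InnerProductSpace ComplexConjugate ComplexOrder

/-- The Hilbert space of a positive kernel. -/
theorem exists_kol {X : Type} (k : X → X → ℂ) (hs : ∀ x y, conj (k x y) = k y x)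
    (hp : ∀ f : X →₀ ℂ, 0 ≤ (f.sum fun x a => f.sum fun y b => conj a * b * k x y).re) :
    ∃ (𝓗 : Type) (_ : NormedAddCommGroup 𝓗) (_ : InnerProductSpace ℂ 𝓗) (_ : CompleteSpace 𝓗)
      (e : X → 𝓗), (∀ x y, ⟪e x, e y⟫_ℂ = k x y) ∧
        DenseRange (Finsupp.linearCombination ℂ e) := by
  let core : PreInnerProductSpace.Core ℂ (X →₀ ℂ) :=
    { inner := fun f g => f.sum fun x a => g.sum fun y b => conj a * b * k x y
      conj_inner_symm := fun f g => by
        rw [Finsupp.sum_comm]
        simp only [map_finsuppSum, map_mul, Complex.conj_conj, hs]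
        congr! 6
        ring
      add_left := fun _ _ _ => by
        rw [Finsupp.sum_add_index'] <;> simp [← Finsupp.sum_add, add_mul]
      smul_left := fun _ _ _ => by
        rw [Finsupp.sum_smul_index] <;> simp [Finsupp.mul_sum, ← mul_assoc]
      re_inner_nonneg := hp }
  letI : SeminormedAddCommGroup (X →₀ ℂ) :=
    InnerProductSpace.Core.toSeminormedAddCommGroup (𝕜 := ℂ) (c := core)
  letI : InnerProductSpace ℂ (X →₀ ℂ) := InnerProductSpace.ofCore core
  have hin : ∀ f g : X →₀ ℂ, ⟪f, g⟫_ℂ = f.sum fun x a => g.sum fun y b => conj a * b * k x y :=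
    fun _ _ => rfl
  refine ⟨UniformSpace.Completion (X →₀ ℂ), inferInstance, inferInstance, inferInstance,
    fun x => ((Finsupp.single x (1 : ℂ) : X →₀ ℂ) : UniformSpace.Completion (X →₀ ℂ)), ?_, ?_⟩
  · intro x y
    rw [UniformSpace.Completion.inner_coe, hin]
    simp
  · have h1 : (Finsupp.linearCombination ℂ fun x =>
        ((Finsupp.single x (1 : ℂ) : X →₀ ℂ) : UniformSpace.Completion (X →₀ ℂ))) =
        (UniformSpace.Completion.toComplL (𝕜 := ℂ) (E := X →₀ ℂ)).toLinearMap := by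
      apply Finsupp.lhom_ext'
      intro x
      apply LinearMap.ext_ring
      simp
    rw [h1]
    exact UniformSpace.Completion.denseRange_coe

section rep

variable {G X 𝓗 : Type} [Group G] [NormedAddCommGroup 𝓗] [InnerProductSpace ℂ 𝓗] [CompleteSpace 𝓗]

theorem ext_of_dense {E : Type} [NormedAddCommGroup E] [NormedSpace ℂ E] {e : X → 𝓗}
    (hd : DenseRange (Finsupp.linearCombination ℂ e)) {A B : 𝓗 →L[ℂ] E}
    (h : ∀ x, A (e x) = B (e x)) : A = B := by
  have h1 : A.toLinearMap ∘ₗ Finsupp.linearCombination ℂ e =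
      B.toLinearMap ∘ₗ Finsupp.linearCombination ℂ e := by
    apply Finsupp.lhom_ext'
    intro g
    apply LinearMap.ext_ring
    simp [h]
  have h2 : (A : 𝓗 → E) = B := by
    refine hd.equalizer A.continuous B.continuous ?_
    funext a
    exact congrArg (fun L : (X →₀ ℂ) →ₗ[ℂ] E => L a) h1
  ext1 v
  exact congrFun h2 v

theorem eq_of_inner_dense {e : X → 𝓗} (hd : DenseRange (Finsupp.linearCombination ℂ e)) {u v : 𝓗}
    (h : ∀ x, ⟪u, e x⟫_ℂ = ⟪v, e x⟫_ℂ) : u = v := by
  have h1 : innerSL ℂ u = innerSL ℂ v := ext_of_dense hd fun x => by simpa using h x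
  exact ext_inner_right ℂ fun w => by simpa using congrArg (fun L : 𝓗 →L[ℂ] ℂ => L w) h1

/-- The representation of an invariant family with dense span. -/
theorem exists_rep (a : G → X → X) (h1 : ∀ x, a 1 x = x)
    (hm : ∀ g h x, a (g * h) x = a g (a h x)) {e : X → 𝓗}
    (hd : DenseRange (Finsupp.linearCombination ℂ e))
    (hi : ∀ g x y, ⟪e (a g x), e (a g y)⟫_ℂ = ⟪e x, e y⟫_ℂ) :
    ∃ ρ : G →* (𝓗 →L[ℂ] 𝓗), (∀ g v, ‖ρ g v‖ = ‖v‖) ∧ ∀ g x, ρ g (e x) = e (a g x) := by
  have hin : ∀ g (f f' : X →₀ ℂ), ⟪Finsupp.linearCombination ℂ (fun x => e (a g x)) f,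
      Finsupp.linearCombination ℂ (fun x => e (a g x)) f'⟫_ℂ =
      ⟪Finsupp.linearCombination ℂ e f, Finsupp.linearCombination ℂ e f'⟫_ℂ := by
    intro g f f'
    simp only [Finsupp.linearCombination_apply, Finsupp.sum_inner, Finsupp.inner_sum,
      inner_smul_left, inner_smul_right, hi]
  have hn : ∀ g (f : X →₀ ℂ), ‖Finsupp.linearCombination ℂ (fun x => e (a g x)) f‖ =
      ‖Finsupp.linearCombination ℂ e f‖ := by
    intro g f
    rw [@norm_eq_sqrt_re_inner ℂ, @norm_eq_sqrt_re_inner ℂ, hin]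
  let T : G → 𝓗 →L[ℂ] 𝓗 := fun g =>
    (Finsupp.linearCombination ℂ (fun x => e (a g x))).extendOfNorm (Finsupp.linearCombination ℂ e)
  have hT : ∀ g f, T g (Finsupp.linearCombination ℂ e f) =
      Finsupp.linearCombination ℂ (fun x => e (a g x)) f := fun g f =>
    LinearMap.extendOfNorm_eq hd ⟨1, fun f => by rw [hn, one_mul]⟩ f
  have hTe : ∀ g x, T g (e x) = e (a g x) := by
    intro g x
    have := hT g (Finsupp.single x 1)
    simpa using this
  refine ⟨{ toFun := T
            map_one' := ext_of_dense hd fun x => by rw [hTe, h1]; rfl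
            map_mul' := fun g h => ext_of_dense hd fun x => by
              rw [hTe, hm, ContinuousLinearMap.mul_apply, hTe, hTe] }, ?_, hTe⟩
  intro g v
  refine hd.induction_on (p := fun v => ‖T g v‖ = ‖v‖) v
    (isClosed_eq (T g).continuous.norm continuous_norm) fun f => ?_
  rw [hT, hn]

/-- The vectors which are continuous at the unit form a closed submodule. -/
def cts [TopologicalSpace G] (ρ : G →* (𝓗 →L[ℂ] 𝓗)) : Submodule ℂ 𝓗 where
  carrier := {v | Tendsto (fun g => ρ g v) (𝓝 1) (𝓝 v)}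
  add_mem' {u v} hu hv := by
    have := Tendsto.add hu hv
    simpa only [Set.mem_setOf_eq, map_add] using this
  zero_mem' := by simp only [Set.mem_setOf_eq, map_zero]; exact tendsto_const_nhds
  smul_mem' c v hv := by
    have := Tendsto.const_smul hv c
    simpa only [Set.mem_setOf_eq, map_smul] using this

theorem isClosed_cts [TopologicalSpace G] {ρ : G →* (𝓗 →L[ℂ] 𝓗)} (hρ : ∀ g v, ‖ρ g v‖ = ‖v‖) :
    IsClosed (cts ρ : Set 𝓗) := by
  refine isClosed_of_closure_subset fun v hv => ?_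
  change Tendsto (fun g => ρ g v) (𝓝 1) (𝓝 v)
  rw [Metric.tendsto_nhds]
  intro ε hε
  obtain ⟨u, hu, huv⟩ := Metric.mem_closure_iff.1 hv (ε / 3) (by positivity)
  have hu' : Tendsto (fun g => ρ g u) (𝓝 1) (𝓝 u) := hu
  filter_upwards [Metric.tendsto_nhds.1 hu' (ε / 3) (by positivity)] with g hg
  have h1 : dist (ρ g v) (ρ g u) = dist v u := by
    rw [dist_eq_norm, dist_eq_norm, ← map_sub, hρ]
  have h2 := dist_triangle4 (ρ g v) (ρ g u) u v
  rw [dist_comm u v] at h2
  linarith

theorem urep_of_dense [TopologicalSpace G] {ρ : G →* (𝓗 →L[ℂ] 𝓗)} (hρ : ∀ g v, ‖ρ g v‖ = ‖v‖)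
    {e : X → 𝓗} (hd : DenseRange (Finsupp.linearCombination ℂ e))
    (hc : ∀ x, Tendsto (fun g => ρ g (e x)) (𝓝 1) (𝓝 (e x))) : P092.H933.URep ρ := by
  refine ⟨hρ, fun v => ?_⟩
  refine hd.induction_on (p := fun v => v ∈ cts ρ) v (isClosed_cts hρ) fun f => ?_
  rw [Finsupp.linearCombination_apply]
  exact Submodule.finsuppSum_mem _ _ _ _ fun x _ => Submodule.smul_mem _ _ (hc x)

end rep

end Vale.Agent.P092LG
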