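import Vale.Agent.P092LG.Kol
import Mathlib.Analysis.Matrix.Order
import Mathlib.Analysis.InnerProductSpace.GramMatrix

/-!
P092 (helper44), block B1: mixing, and the representation with the squared coefficients.
-/

set_option linter.all false

namespace Vale.Agent.P092LG

open Filter Topology
open scoped InnerProductSpace ComplexConjugate ComplexOrder
open Vale.Agent.P092.H933 (Len URep exists_wlim wlim_perturb)
open Vale.Agent.P092.H15 (Ctr HMG)

theorem exists_kol' {X : Type} (k : Matrix X X ℂ) (hk : k.PosSemidef) :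
    ∃ (𝓗 : Type) (_ : NormedAddCommGroup 𝓗) (_ : InnerProductSpace ℂ 𝓗) (_ : CompleteSpace 𝓗)
      (e : X → 𝓗), (∀ x y, ⟪e x, e y⟫_ℂ = k x y) ∧
        DenseRange (Finsupp.linearCombination ℂ e) := by
  refine exists_kol k (fun x y => hk.1.apply y x) fun f => ?_
  have h1 := (Complex.nonneg_iff.1 (hk.2 f)).1
  have e : (f.sum fun x a => f.sum fun y b => conj a * b * k x y) =
      f.sum fun x a => f.sum fun y b => star a * k x y * b := by
    refine Finsupp.sum_congr fun x _ => Finsupp.sum_congr fun y _ => ?_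
    rw [Complex.star_def]
    ring
  rw [e]
  exact h1

theorem psd_gram {E : Type} [NormedAddCommGroup E] [InnerProductSpace ℂ E] {X : Type} (v : X → E) :
    (Matrix.gram ℂ v).PosSemidef := by
  refine ⟨Matrix.isHermitian_gram ℂ v, fun f => ?_⟩
  have e : (f.sum fun x a => f.sum fun y b => star a * Matrix.gram ℂ v x y * b) =
      ⟪f.sum fun x a => a • v x, f.sum fun x a => a • v x⟫_ℂ := by
    rw [Finsupp.sum_inner]
    refine Finsupp.sum_congr fun x _ => ?_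
    rw [Finsupp.inner_sum]
    refine Finsupp.sum_congr fun y _ => ?_
    rw [inner_smul_left, inner_smul_right, Matrix.gram_apply, Complex.star_def]
    ring
  rw [e, Complex.nonneg_iff]
  exact ⟨inner_self_nonneg (𝕜 := ℂ), (inner_self_im (𝕜 := ℂ) _).symm⟩

variable {G : Type} [Group G] [TopologicalSpace G] [IsTopologicalGroup G]
  {𝓗 : Type} [NormedAddCommGroup 𝓗] [InnerProductSpace ℂ 𝓗] [CompleteSpace 𝓗]
  {σ : G →* (𝓗 →L[ℂ] 𝓗)}

/-- The matrix coefficients vanish at infinity. -/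
def C0 (σ : G →* (𝓗 →L[ℂ] 𝓗)) : Prop :=
  ∀ ξ η, Tendsto (fun g => ⟪σ g ξ, η⟫_ℂ) (cocompact G) (𝓝 0)

theorem ctr_fixed (hσ : URep σ) (U : Ultrafilter G) {ξ ζ : 𝓗}
    (hζ : ∀ η, Tendsto (fun b => ⟪σ b ξ, η⟫_ℂ) U (𝓝 ⟪ζ, η⟫_ℂ)) {g : G} (hg : Ctr U g) :
    σ g ζ = ζ := by
  obtain ⟨γ, hγ, hγ1⟩ := hg
  refine ext_inner_right ℂ fun η => ?_
  rw [hσ.inner_left]
  have h3 : Tendsto (fun b => ⟪σ b ξ, σ (γ b)⁻¹ η⟫_ℂ) U (𝓝 ⟪ζ, σ g⁻¹ η⟫_ℂ) := by
    refine wlim_perturb (A' := fun b => σ b ξ) (C := ‖ξ‖) ?_ (fun i => by rw [hσ.iso])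
      (hσ.tendsto hγ.inv tendsto_const_nhds) (hζ _)
    simp only [sub_self]
    exact tendsto_const_nhds
  have h4 : Tendsto (fun b => ⟪σ b (σ (b⁻¹ * γ b * b) ξ), η⟫_ℂ) U (𝓝 ⟪ζ, η⟫_ℂ) := by
    refine wlim_perturb (A' := fun b => σ b ξ) (C := ‖ξ‖) ?_
      (fun i => by rw [hσ.iso]) (tendsto_const_nhds (x := η)) (hζ η)
    rw [tendsto_zero_iff_norm_tendsto_zero]
    have h1 : Tendsto (fun b => σ (b⁻¹ * γ b * b) ξ) U (𝓝 ξ) := (hσ.cont ξ).comp hγ1
    have h5 := tendsto_iff_norm_sub_tendsto_zero.1 h1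
    refine h5.congr fun i => ?_
    rw [← map_sub, hσ.iso]
  refine tendsto_nhds_unique h3 (h4.congr fun i => ?_)
  rw [← hσ.inner_left, URep.conj_apply]

theorem HMF.c0 {I : Type} {S : I → Set G} (h : HMF S) (hσ : URep σ) (hN : ∀ i, NoFix σ (S i)) :
    C0 σ := by
  intro ξ η
  rw [tendsto_iff_ultrafilter]
  intro U hU
  obtain ⟨ζ, hζ⟩ := exists_wlim U (fun b => σ b ξ) (C := ‖ξ‖) (fun i => by rw [hσ.iso])
  obtain ⟨i, hi⟩ := h.2 U hU
  have hz : ζ = 0 := hN i ζ fun s hs => by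
    have := hi (fun g => ‖σ g ζ - ζ‖) (hσ.len ζ)
      (fun g hg => by rw [ctr_fixed hσ U hζ hg, sub_self, norm_zero]) s hs
    exact sub_eq_zero.1 (norm_eq_zero.1 this)
  have := hζ η
  rwa [hz, inner_zero_left] at this

theorem C0.noFix (h : C0 σ) {S : Set G} (hS : ¬ IsCompact (closure S)) : NoFix σ S := by
  intro v hv
  by_contra h0
  have h1 : (0 : ℝ) < ‖⟪v, v⟫_ℂ‖ := norm_pos_iff.2 (by simpa using h0)
  have h2 := (tendsto_zero_iff_norm_tendsto_zero.1 (h v v)).eventually (gt_mem_nhds h1)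
  obtain ⟨K, hK, hK2⟩ := mem_cocompact.1 h2
  refine hS (hK.closure_of_subset fun g hg => ?_)
  by_contra hgK
  have h3 : ‖⟪σ g v, v⟫_ℂ‖ < ‖⟪v, v⟫_ℂ‖ := hK2 hgK
  rw [hv g hg] at h3
  exact lt_irrefl _ h3

theorem c0_of_dense (hσ : URep σ) {X : Type} {e : X → 𝓗}
    (hd : DenseRange (Finsupp.linearCombination ℂ e))
    (h : ∀ x y, Tendsto (fun g => ⟪σ g (e x), e y⟫_ℂ) (cocompact G) (𝓝 0)) : C0 σ := by
  have cl : ∀ (F : G → 𝓗 → ℂ) (B : ℝ), (∀ g u v, ‖F g u - F g v‖ ≤ B * ‖u - v‖) →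
      IsClosed {u | Tendsto (fun g => F g u) (cocompact G) (𝓝 0)} := by
    intro F B hF
    refine isClosed_of_closure_subset fun v hv => ?_
    change Tendsto (fun g => F g v) (cocompact G) (𝓝 0)
    rw [Metric.tendsto_nhds]
    intro ε hε
    obtain ⟨u, hu, huv⟩ := Metric.mem_closure_iff.1 hv (ε / 2 / (|B| + 1)) (by positivity)
    have hu' : Tendsto (fun g => F g u) (cocompact G) (𝓝 0) := hu
    filter_upwards [Metric.tendsto_nhds.1 hu' (ε / 2) (by positivity)] with g hg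
    rw [dist_zero_right] at hg ⊢
    rw [dist_eq_norm, lt_div_iff₀ (by positivity)] at huv
    have h1 := hF g v u
    have h2 : ‖F g v‖ ≤ ‖F g v - F g u‖ + ‖F g u‖ := by
      simpa using norm_add_le (F g v - F g u) (F g u)
    have h3 : B * ‖v - u‖ ≤ |B| * ‖v - u‖ :=
      mul_le_mul_of_nonneg_right (le_abs_self B) (norm_nonneg _)
    nlinarith [norm_nonneg (v - u)]
  have h1 : ∀ x η, Tendsto (fun g => ⟪σ g (e x), η⟫_ℂ) (cocompact G) (𝓝 0) := by
    intro x η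
    refine hd.induction_on (p := fun η => Tendsto (fun g => ⟪σ g (e x), η⟫_ℂ) (cocompact G) (𝓝 0))
      η (cl (fun g u => ⟪σ g (e x), u⟫_ℂ) ‖e x‖ fun g u v => ?_) fun f => ?_
    · rw [← inner_sub_right]
      exact (norm_inner_le_norm _ _).trans (by rw [hσ.iso])
    · simp only [Finsupp.linearCombination_apply, Finsupp.sum, inner_sum, inner_smul_right]
      have := tendsto_finset_sum f.support fun y _ => (h x y).const_mul (f y)
      simpa using this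
  intro ξ η
  refine hd.induction_on (p := fun ξ => Tendsto (fun g => ⟪σ g ξ, η⟫_ℂ) (cocompact G) (𝓝 0))
    ξ (cl (fun g u => ⟪σ g u, η⟫_ℂ) ‖η‖ fun g u v => ?_) fun f => ?_
  · rw [← inner_sub_left, ← map_sub]
    exact (norm_inner_le_norm _ _).trans (by rw [hσ.iso, mul_comm])
  · simp only [Finsupp.linearCombination_apply, Finsupp.sum, map_sum, map_smul, sum_inner,
      inner_smul_left]
    have := tendsto_finset_sum f.support fun y _ => (h1 y η).const_mul (conj (f y))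
    simpa using this

/-- The data of the representation with the squared coefficients. -/
structure IsSq (σ : G →* (𝓗 →L[ℂ] 𝓗)) {H : Type} [NormedAddCommGroup H] [InnerProductSpace ℂ H]
    (ρ : G →* (H →L[ℂ] H)) (sq : 𝓗 → H) : Prop where
  rep : URep ρ
  inn : ∀ x y, ⟪sq x, sq y⟫_ℂ = ((‖⟪x, y⟫_ℂ‖ ^ 2 : ℝ) : ℂ)
  cov : ∀ g x, ρ g (sq x) = sq (σ g x)
  dense : DenseRange (Finsupp.linearCombination ℂ sq)

theorem exists_sq (hσ : URep σ) :
    ∃ (H : Type) (_ : NormedAddCommGroup H) (_ : InnerProductSpace ℂ H) (_ : CompleteSpace H)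
      (ρ : G →* (H →L[ℂ] H)) (sq : 𝓗 → H), IsSq σ ρ sq := by
  have hk := (psd_gram (id : 𝓗 → 𝓗)).hadamard (psd_gram (id : 𝓗 → 𝓗)).transpose
  obtain ⟨H, i1, i2, i3, e, he, hd⟩ := exists_kol' _ hk
  have he' : ∀ x y, ⟪e x, e y⟫_ℂ = ((‖⟪x, y⟫_ℂ‖ ^ 2 : ℝ) : ℂ) := by
    intro x y
    rw [he, Matrix.hadamard_apply, Matrix.transpose_apply, Matrix.gram_apply, Matrix.gram_apply,
      id, id, ← inner_conj_symm y x, Complex.mul_conj, Complex.normSq_eq_norm_sq]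
  obtain ⟨ρ, hρ, hρe⟩ := exists_rep (fun g x => σ g x) (fun x => URep.one_apply x)
    (fun g h x => URep.mul_apply g h x) hd
    (fun g x y => by rw [he', he', hσ.inner_map])
  refine ⟨H, i1, i2, i3, ρ, e, urep_of_dense hρ hd fun x => ?_, he', hρe, hd⟩
  rw [tendsto_iff_norm_sub_tendsto_zero]
  have h1 : ∀ g, ‖ρ g (e x) - e x‖ = √(2 * ‖⟪x, x⟫_ℂ‖ ^ 2 - 2 * ‖⟪σ g x, x⟫_ℂ‖ ^ 2) := by
    intro g
    rw [← Real.sqrt_sq (norm_nonneg (ρ g (e x) - e x)), @norm_sub_sq ℂ, hρ, hρe, he',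
      ← @inner_self_eq_norm_sq ℂ, he']
    congr 1
    simp only [RCLike.re_to_complex, Complex.ofReal_re]
    ring
  simp only [h1]
  have h2 : Tendsto (fun g => ⟪σ g x, x⟫_ℂ) (𝓝 1) (𝓝 ⟪x, x⟫_ℂ) :=
    (hσ.cont x).inner tendsto_const_nhds
  have h3 := ((h2.norm.pow 2).const_mul 2).const_sub (2 * ‖⟪x, x⟫_ℂ‖ ^ 2)
  rw [sub_self] at h3
  have h4 := h3.sqrt
  rwa [Real.sqrt_zero] at h4

section sq

variable {H : Type} [NormedAddCommGroup H] [InnerProductSpace ℂ H] [CompleteSpace H]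
  {ρ : G →* (H →L[ℂ] H)} {sq : 𝓗 → H}

theorem IsSq.norm (h : IsSq σ ρ sq) (x : 𝓗) : ‖sq x‖ = ‖x‖ ^ 2 := by
  have h2 : ‖sq x‖ ^ 2 = (‖x‖ ^ 2) ^ 2 := by
    rw [← @inner_self_eq_norm_sq ℂ _ _ _ _ (sq x), h.inn, ← @inner_self_eq_norm_sq ℂ _ _ _ _ x,
      inner_self_re_eq_norm]
    simp only [RCLike.re_to_complex, Complex.ofReal_re]
  exact (sq_eq_sq₀ (norm_nonneg _) (by positivity)).1 h2

theorem IsSq.c0 (h : IsSq σ ρ sq) (h0 : C0 σ) : C0 ρ := by
  refine c0_of_dense h.rep h.dense fun x y => ?_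
  simp only [h.cov, h.inn]
  have h1 := ((h0 x y).norm.pow 2).ofReal
  simpa using h1

theorem IsSq.noFix (h : IsSq σ ρ sq) {I : Type} {S : I → Set G} (hS : HMF S) (hσ : URep σ)
    (hN : ∀ i, NoFix σ (S i)) (i : I) : NoFix ρ (S i) :=
  (h.c0 (hS.c0 hσ hN)).noFix (hS.1 i).2

end sq

end Vale.Agent.P092LG
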