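import Vale.Agent.P092LG.Sq

/-!
P092 (helper44), block B1: uniform mixing of equicontinuous families of vectors (ultralimit).
-/

set_option linter.all false

namespace Vale.Agent.P092LG

open Filter Topology
open scoped InnerProductSpace ComplexConjugate ComplexOrder
open Vale.Agent.P092.H933 (Len URep)
open Vale.Agent.P092.H15 (Ctr HMG)

section iso

variable {G 𝓗 : Type} [Group G] [NormedAddCommGroup 𝓗] [InnerProductSpace ℂ 𝓗]
  {ρ : G →* (𝓗 →L[ℂ] 𝓗)}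

theorem rmul (g h : G) (x : 𝓗) : ρ (g * h) x = ρ g (ρ h x) := by
  rw [map_mul]; rfl

theorem rone (x : 𝓗) : ρ 1 x = x := by
  rw [map_one]; rfl

theorem iso_inner (h : ∀ g v, ‖ρ g v‖ = ‖v‖) (g : G) (x y : 𝓗) :
    ⟪ρ g x, ρ g y⟫_ℂ = ⟪x, y⟫_ℂ := by
  let f : 𝓗 →ₗᵢ[ℂ] 𝓗 := ⟨(ρ g).toLinearMap, h g⟩
  exact f.inner_map_map x y

theorem iso_left (h : ∀ g v, ‖ρ g v‖ = ‖v‖) (g : G) (x y : 𝓗) :
    ⟪ρ g⁻¹ x, y⟫_ℂ = ⟪x, ρ g y⟫_ℂ := by
  rw [← iso_inner h g, ← rmul, mul_inv_cancel, rone]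

theorem iso_sub (h : ∀ g v, ‖ρ g v‖ = ‖v‖) (g g' : G) (x : 𝓗) :
    ‖ρ g x - ρ g' x‖ = ‖ρ (g'⁻¹ * g) x - x‖ := by
  rw [← h g' (ρ (g'⁻¹ * g) x - x), map_sub, ← rmul, mul_inv_cancel_left]

end iso

theorem exists_ulim {ι : Type} (W : Ultrafilter ι) (f : ι → ℂ) {B : ℝ} (hf : ∀ i, ‖f i‖ ≤ B) :
    ∃ c, Tendsto f W (𝓝 c) := by
  obtain ⟨c, -, hc⟩ := (isCompact_closedBall (0 : ℂ) B).ultrafilter_le_nhds (W.map f)
    (Filter.tendsto_principal.2 (Eventually.of_forall fun i => by simpa using hf i))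
  exact ⟨c, hc⟩

variable {G : Type} [Group G] [TopologicalSpace G] [IsTopologicalGroup G] {ι : Type}
  {H : ι → Type} [∀ i, NormedAddCommGroup (H i)] [∀ i, InnerProductSpace ℂ (H i)]

/-- Bounded families. -/
def Bdd (H : ι → Type) [∀ i, NormedAddCommGroup (H i)] [∀ i, InnerProductSpace ℂ (H i)] :
    Submodule ℂ (∀ i, H i) where
  carrier := {x | ∃ B, ∀ i, ‖x i‖ ≤ B}
  add_mem' := by
    rintro x y ⟨B, hB⟩ ⟨C, hC⟩
    exact ⟨B + C, fun i => (norm_add_le _ _).trans (add_le_add (hB i) (hC i))⟩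
  zero_mem' := ⟨0, fun i => by simp⟩
  smul_mem' := by
    rintro c x ⟨B, hB⟩
    exact ⟨‖c‖ * B, fun i => by
      rw [Pi.smul_apply, norm_smul]
      exact mul_le_mul_of_nonneg_left (hB i) (norm_nonneg _)⟩

/-- Equicontinuous families. -/
def Eqc (ρ : ∀ i, G →* (H i →L[ℂ] H i)) (x : ∀ i, H i) : Prop :=
  ∀ ε : ℝ, 0 < ε → ∀ᶠ g in 𝓝 (1 : G), ∀ i, ‖ρ i g (x i) - x i‖ ≤ ε

variable {ρ : ∀ i, G →* (H i →L[ℂ] H i)}

theorem Eqc.tendsto {x : ∀ i, H i} (h : Eqc ρ x) {l : Filter ι} {c : ι → G}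
    (hc : Tendsto c l (𝓝 1)) : Tendsto (fun i => ‖ρ i (c i) (x i) - x i‖) l (𝓝 0) := by
  rw [Metric.tendsto_nhds]
  intro ε hε
  filter_upwards [hc.eventually (h (ε / 2) (by positivity))] with i hi
  rw [dist_zero_right, norm_norm]
  linarith [hi i]

/-- Equicontinuous bounded families. -/
def EqS (ρ : ∀ i, G →* (H i →L[ℂ] H i)) : Submodule ℂ (Bdd H) where
  carrier := {x | Eqc ρ x.1}
  add_mem' := by
    intro x y hx hy ε hε
    filter_upwards [hx (ε / 2) (by positivity), hy (ε / 2) (by positivity)] with g h1 h2 i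
    have e : ρ i g ((x + y).1 i) - (x + y).1 i =
        (ρ i g (x.1 i) - x.1 i) + (ρ i g (y.1 i) - y.1 i) := by
      simp only [Submodule.coe_add, Pi.add_apply, map_add]
      abel
    rw [e]
    linarith [norm_add_le (ρ i g (x.1 i) - x.1 i) (ρ i g (y.1 i) - y.1 i), h1 i, h2 i]
  zero_mem' := fun ε hε => Eventually.of_forall fun g i => by simp [hε.le]
  smul_mem' := by
    intro c x hx ε hε
    filter_upwards [hx (ε / (‖c‖ + 1)) (by positivity)] with g h1 i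
    have e : ρ i g ((c • x).1 i) - (c • x).1 i = c • (ρ i g (x.1 i) - x.1 i) := by
      simp only [Submodule.coe_smul, Pi.smul_apply, map_smul, smul_sub]
    rw [e, norm_smul]
    have h2 := h1 i
    rw [le_div_iff₀ (by positivity)] at h2
    nlinarith [norm_nonneg (ρ i g (x.1 i) - x.1 i)]

/-- The action on the bounded families. -/
def act (hρ : ∀ i g v, ‖ρ i g v‖ = ‖v‖) (g : G) (x : Bdd H) : Bdd H :=
  ⟨fun i => ρ i g (x.1 i), by
    obtain ⟨B, hB⟩ := x.2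
    exact ⟨B, fun i => by rw [hρ]; exact hB i⟩⟩

theorem act_mem (hρ : ∀ i g v, ‖ρ i g v‖ = ‖v‖) (g : G) {x : Bdd H} (hx : x ∈ EqS ρ) :
    act hρ g x ∈ EqS ρ := by
  intro ε hε
  have hc : Tendsto (fun h : G => g⁻¹ * (h * g)) (𝓝 1) (𝓝 1) := by
    have : Continuous fun h : G => g⁻¹ * (h * g) := by fun_prop
    simpa using this.tendsto 1
  filter_upwards [hc.eventually (hx ε hε)] with h hh i
  change ‖ρ i h (ρ i g (x.1 i)) - ρ i g (x.1 i)‖ ≤ ε
  rw [← rmul, iso_sub (hρ i)]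
  exact hh i

/-- The ultraproduct. -/
theorem exists_ultra (W : Ultrafilter ι) (hρ : ∀ i g v, ‖ρ i g v‖ = ‖v‖) :
    ∃ (𝓗 : Type) (_ : NormedAddCommGroup 𝓗) (_ : InnerProductSpace ℂ 𝓗) (_ : CompleteSpace 𝓗)
      (e : Bdd H →ₗ[ℂ] 𝓗) (π : G →* (𝓗 →L[ℂ] 𝓗)), (∀ g v, ‖π g v‖ = ‖v‖) ∧
      (∀ g x, π g (e x) = e (act hρ g x)) ∧
      ∀ x y, Tendsto (fun i => ⟪x.1 i, y.1 i⟫_ℂ) W (𝓝 ⟪e x, e y⟫_ℂ) := by
  have h1 : ∀ x y : Bdd H, ∃ c, Tendsto (fun i => ⟪x.1 i, y.1 i⟫_ℂ) W (𝓝 c) := by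
    intro x y
    obtain ⟨B, hB⟩ := x.2
    obtain ⟨C, hC⟩ := y.2
    exact exists_ulim W _ (B := B * C) fun i => (norm_inner_le_norm _ _).trans
      (mul_le_mul (hB i) (hC i) (norm_nonneg _) ((norm_nonneg _).trans (hB i)))
  choose k hk using h1
  obtain ⟨𝓗, i1, i2, i3, e, he, hd⟩ := exists_kol k (fun x y => by
    refine tendsto_nhds_unique ((Complex.continuous_conj.tendsto _).comp (hk x y)) ?_
    refine (hk y x).congr fun i => ?_
    simp) (fun f => by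
    have h2 : Tendsto (fun i => (f.sum fun x a => f.sum fun y b => conj a * b * ⟪x.1 i, y.1 i⟫_ℂ))
        W (𝓝 (f.sum fun x a => f.sum fun y b => conj a * b * k x y)) :=
      tendsto_finset_sum _ fun x _ => tendsto_finset_sum _ fun y _ => (hk x y).const_mul _
    refine ge_of_tendsto' ((Complex.continuous_re.tendsto _).comp h2) fun i => ?_
    have e : (f.sum fun x a => f.sum fun y b => conj a * b * ⟪x.1 i, y.1 i⟫_ℂ) =
        ⟪f.sum fun x a => a • x.1 i, f.sum fun x a => a • x.1 i⟫_ℂ := by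
      rw [Finsupp.sum_inner]
      refine Finsupp.sum_congr fun x _ => ?_
      rw [Finsupp.inner_sum]
      refine Finsupp.sum_congr fun y _ => ?_
      rw [inner_smul_left, inner_smul_right]
      ring
    rw [Function.comp_apply, e]
    exact inner_self_nonneg (𝕜 := ℂ))
  have hadd : ∀ x y, e (x + y) = e x + e y := fun x y => eq_of_inner_dense hd fun z => by
    rw [inner_add_left, he, he, he]
    refine tendsto_nhds_unique (hk _ _) (((hk x z).add (hk y z)).congr fun i => ?_)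
    simp only [Submodule.coe_add, Pi.add_apply, inner_add_left]
  have hsm : ∀ (c : ℂ) x, e (c • x) = c • e x := fun c x => eq_of_inner_dense hd fun z => by
    rw [inner_smul_left, he, he]
    refine tendsto_nhds_unique (hk _ _) (((hk x z).const_mul (conj c)).congr fun i => ?_)
    simp only [Submodule.coe_smul, Pi.smul_apply, inner_smul_left]
  obtain ⟨π, hπ, hπe⟩ := exists_rep (act hρ) (fun x => Subtype.ext (funext fun i => rone _))
    (fun g h x => Subtype.ext (funext fun i => rmul _ _ _)) hd (fun g x y => by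
      rw [he, he]
      refine tendsto_nhds_unique (hk _ _) ((hk x y).congr fun i => ?_)
      exact (iso_inner (hρ i) g _ _).symm)
  exact ⟨𝓗, i1, i2, i3, ⟨⟨e, hadd⟩, hsm⟩, π, hπ, hπe, fun x y => by
    have := hk x y
    rwa [← he] at this⟩

/-- **Uniform mixing of equicontinuous families.** -/
theorem ult (W : Ultrafilter ι) (hρ : ∀ i g v, ‖ρ i g v‖ = ‖v‖) (a : ι → G) {Q : Set G}
    (hQ : IsCompact Q) {κ : ℝ} (hκ : 0 < κ) (hK : ∀ i v, ∃ g ∈ Q, κ * ‖v‖ ≤ ‖ρ i g v - v‖)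
    (hL : ∀ f : G → ℝ, Len f → (∀ g, Ctr (W.map a) g → f g = 0) → ∀ g ∈ Q, f g = 0)
    {ξ η : Bdd H} (hξ : ξ ∈ EqS ρ) (hη : η ∈ EqS ρ) :
    Tendsto (fun i => ⟪η.1 i, ρ i (a i) (ξ.1 i)⟫_ℂ) W (𝓝 0) := by
  obtain ⟨𝓗, i1, i2, i3, e, π, hπ, hπe, he⟩ := exists_ultra W hρ
  have hn : ∀ x, Tendsto (fun i => ‖x.1 i‖) W (𝓝 ‖e x‖) := by
    intro x
    have h1 := ((Complex.continuous_re.tendsto _).comp (he x x)).sqrt
    rw [@norm_eq_sqrt_re_inner ℂ _ _ _ _ (e x)]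
    refine h1.congr fun i => ?_
    rw [@norm_eq_sqrt_re_inner ℂ _ _ _ _ (x.1 i)]
    rfl
  have hn2 : ∀ g x, Tendsto (fun i => ‖ρ i g (x.1 i) - x.1 i‖) W (𝓝 ‖π g (e x) - e x‖) := by
    intro g x
    rw [hπe, ← map_sub]
    exact hn _
  let ζ : Bdd H := ⟨fun i => ρ i (a i) (ξ.1 i), by
    obtain ⟨B, hB⟩ := ξ.2
    exact ⟨B, fun i => by rw [hρ]; exact hB i⟩⟩
  let M : Submodule ℂ 𝓗 := ((EqS ρ).map e).topologicalClosure
  haveI : CompleteSpace M := (Submodule.isClosed_topologicalClosure _).completeSpace_coe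
  have hM : ∀ {p : 𝓗 → Prop}, IsClosed {v | p v} → (∀ x ∈ EqS ρ, p (e x)) → ∀ v ∈ M, p v := by
    intro p hp h v hv
    refine closure_minimal (s := (((EqS ρ).map e : Submodule ℂ 𝓗) : Set 𝓗)) (t := {v | p v}) ?_ hp hv
    rintro _ ⟨x, hx, rfl⟩
    exact h x hx
  have heM : ∀ x ∈ EqS ρ, e x ∈ M := fun x hx =>
    Submodule.le_topologicalClosure _ ⟨x, hx, rfl⟩
  have hinv : ∀ g, ∀ v ∈ M, π g v ∈ M := fun g =>
    hM ((Submodule.isClosed_topologicalClosure _).preimage (π g).continuous) fun x hx => by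
      rw [hπe]
      exact heM _ (act_mem hρ g hx)
  have hcts : ∀ v ∈ M, v ∈ cts π := hM (isClosed_cts hπ) fun x hx => by
    change Tendsto (fun g => π g (e x)) (𝓝 1) (𝓝 (e x))
    rw [Metric.tendsto_nhds]
    intro ε hε
    filter_upwards [hx (ε / 2) (by positivity)] with g hg
    rw [dist_eq_norm]
    have := le_of_tendsto' (hn2 g x) hg
    linarith
  set z := M.starProjection (e ζ) with hz
  have hzM : z ∈ M := M.starProjection_apply_mem _
  have hzv : ∀ v ∈ M, ⟪v, z⟫_ℂ = ⟪v, e ζ⟫_ℂ := by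
    intro v hv
    have := M.sub_starProjection_mem_orthogonal (e ζ) v hv
    rw [inner_sub_right] at this
    exact (sub_eq_zero.1 this).symm
  have hlen : Len fun g => ‖π g z - z‖ := by
    have h1 := Len.ofAction (G := G) (X := 𝓗) (fun g x => π g x) (fun g g' x => rmul g g' x) z
      (rone z) (fun g x y => by rw [dist_eq_norm, dist_eq_norm, ← map_sub, hπ]) (hcts z hzM)
    simpa only [dist_eq_norm] using h1
  have hctr : ∀ g, Ctr (W.map a) g → ‖π g z - z‖ = 0 := by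
    rintro g ⟨γ, hγ, hγ1⟩
    have hγ' : Tendsto (fun i => γ (a i)) W (𝓝 g) := hγ
    have hγ1' : Tendsto (fun i => (a i)⁻¹ * γ (a i) * a i) W (𝓝 1) := hγ1
    have h1 : ∀ v ∈ M, ⟪π g⁻¹ v, e ζ⟫_ℂ = ⟪v, e ζ⟫_ℂ := by
      refine hM (isClosed_eq (by fun_prop) (by fun_prop)) fun x hx => ?_
      rw [hπe]
      obtain ⟨B, hB⟩ := ξ.2
      obtain ⟨C, hC⟩ := x.2
      have t1 : Tendsto (fun i => ‖ρ i (γ (a i) * g⁻¹) (x.1 i) - x.1 i‖ * B) W (𝓝 0) := by
        have := (Eqc.tendsto hx (c := fun i => γ (a i) * g⁻¹)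
          (by simpa using hγ'.mul_const g⁻¹)).mul_const B
        rwa [zero_mul] at this
      have t2 : Tendsto (fun i => C * ‖ρ i ((a i)⁻¹ * γ (a i) * a i) (ξ.1 i) - ξ.1 i‖) W (𝓝 0) := by
        have := (Eqc.tendsto hξ hγ1').const_mul C
        rwa [mul_zero] at this
      have t3 := t1.add t2
      rw [add_zero] at t3
      have t4 : Tendsto (fun i => ⟪(act hρ g⁻¹ x).1 i, ζ.1 i⟫_ℂ - ⟪x.1 i, ζ.1 i⟫_ℂ) W (𝓝 0) := by
        refine squeeze_zero_norm (fun i => ?_) t3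
        have e1 : ⟪(act hρ g⁻¹ x).1 i, ζ.1 i⟫_ℂ - ⟪x.1 i, ζ.1 i⟫_ℂ =
            ⟪ρ i g⁻¹ (x.1 i) - ρ i (γ (a i))⁻¹ (x.1 i), ζ.1 i⟫_ℂ +
              ⟪x.1 i, ρ i (γ (a i) * a i) (ξ.1 i) - ρ i (a i) (ξ.1 i)⟫_ℂ := by
          rw [inner_sub_left, inner_sub_right, iso_left (hρ i) (γ (a i)), rmul]
          change ⟪ρ i g⁻¹ (x.1 i), ζ.1 i⟫_ℂ - ⟪x.1 i, ζ.1 i⟫_ℂ = _
          ring
        rw [e1]
        refine (norm_add_le _ _).trans (add_le_add ?_ ?_)
        · refine (norm_inner_le_norm _ _).trans ?_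
          rw [iso_sub (hρ i), inv_inv]
          refine mul_le_mul_of_nonneg_left ?_ (norm_nonneg _)
          change ‖ρ i (a i) (ξ.1 i)‖ ≤ B
          rw [hρ]
          exact hB i
        · refine (norm_inner_le_norm _ _).trans ?_
          rw [iso_sub (hρ i), mul_assoc]
          exact mul_le_mul_of_nonneg_right (hC i) (norm_nonneg _)
      exact sub_eq_zero.1 (tendsto_nhds_unique ((he _ _).sub (he _ _)) t4)
    have h2 : π g z - z ∈ M := M.sub_mem (hinv g z hzM) hzM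
    rw [norm_eq_zero, ← inner_self_eq_zero (𝕜 := ℂ), inner_sub_right, ← iso_left hπ,
      hzv _ (hinv _ _ h2), h1 _ h2, hzv _ h2, sub_self]
  have hfix : ∀ g ∈ Q, π g z = z := fun g hg =>
    sub_eq_zero.1 (norm_eq_zero.1 (hL _ hlen hctr g hg))
  have hkaz : ∀ v ∈ M, κ * ‖v‖ ≤ 2 * ‖v - z‖ := by
    refine hM (isClosed_le (by fun_prop) (by fun_prop)) fun x hx => ?_
    choose c hc hcx using fun i => hK i (x.1 i)
    obtain ⟨g, hg, hcg⟩ := hQ.ultrafilter_le_nhds (W.map c)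
      (Filter.tendsto_principal.2 (Eventually.of_forall hc))
    have hcg' : Tendsto c W (𝓝 g) := hcg
    have t1 := Eqc.tendsto hx (c := fun i => g⁻¹ * c i) (by simpa using hcg'.const_mul g⁻¹)
    have t2 := t1.add (hn2 g x)
    rw [zero_add] at t2
    have h3 : κ * ‖e x‖ ≤ ‖π g (e x) - e x‖ := by
      refine le_of_tendsto_of_tendsto' ((hn x).const_mul κ) t2 fun i => (hcx i).trans ?_
      rw [← iso_sub (hρ i)]
      exact norm_sub_le_norm_sub_add_norm_sub _ _ _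
    have h4 : π g (e x) - e x = π g (e x - z) - (e x - z) := by
      rw [map_sub, hfix g hg]
      abel
    rw [h4] at h3
    have h5 := norm_sub_le (π g (e x - z)) (e x - z)
    rw [hπ] at h5
    linarith
  have hz0 : z = 0 := by
    have := hkaz z hzM
    rw [sub_self, norm_zero, mul_zero] at this
    exact norm_eq_zero.1 (le_antisymm (by nlinarith [norm_nonneg z]) (norm_nonneg _))
  have h6 := he η ζ
  rwa [← hzv _ (heM η hη), hz0, inner_zero_right] at h6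

end Vale.Agent.P092LG
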